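import Mathlib.Analysis.SpecialFunctions.SmoothTransition
import Mathlib.Analysis.SpecialFunctions.Trigonometric.Deriv
import Mathlib.Analysis.SpecialFunctions.Trigonometric.Basic
import Mathlib.Analysis.Calculus.Deriv.Support
import Mathlib.Analysis.Calculus.ContDiff.Deriv
import Mathlib.Analysis.Calculus.Deriv.Shift
import Mathlib.Analysis.Calculus.Deriv.CompMul

/-!
# Row 212, NECKABS (helper67): functions of the neck coordinate

`Bd k b M`: the derivatives of order `≤ k` of `b : ℝ → ℝ` are bounded by `M`.  `Sm b`: smooth with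
all derivatives bounded.  Steps, rotation pairs `(cos θ, sin θ)` and exponential weights.
-/

set_option autoImplicit false

namespace Crest.Agent.X212.Neck67

open Set Real
open scoped ContDiff

/-- Derivatives of order `≤ k` are bounded by `M`. -/
def Bd : ℕ → (ℝ → ℝ) → ℝ → Prop
  | 0, b, M => ∀ t, |b t| ≤ M
  | k + 1, b, M => (∀ t, |b t| ≤ M) ∧ Bd k (deriv b) M

/-- Smooth with all derivatives bounded. -/
structure Sm (b : ℝ → ℝ) : Prop where
  cd : ContDiff ℝ ∞ b
  bd : ∀ k, ∃ M, Bd k b M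

theorem cd_deriv {b : ℝ → ℝ} (h : ContDiff ℝ ∞ b) : ContDiff ℝ ∞ (deriv b) :=
  (contDiff_infty_iff_deriv.1 h).2

theorem cd_diff {b : ℝ → ℝ} (h : ContDiff ℝ ∞ b) : Differentiable ℝ b :=
  (contDiff_infty_iff_deriv.1 h).1

namespace Bd

variable {k : ℕ} {b c : ℝ → ℝ} {M N : ℝ}

theorem abs_le (h : Bd k b M) (t : ℝ) : |b t| ≤ M := by
  cases k with
  | zero => exact h t
  | succ k => exact h.1 t

theorem nonneg (h : Bd k b M) : 0 ≤ M := (abs_nonneg _).trans (h.abs_le 0)

theorem mono (h : Bd k b M) (hM : M ≤ N) : Bd k b N := by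
  induction k generalizing b with
  | zero => exact fun t => (h t).trans hM
  | succ k ih => exact ⟨fun t => (h.1 t).trans hM, ih h.2⟩

theorem of_succ (h : Bd (k + 1) b M) : Bd k b M := by
  induction k generalizing b with
  | zero => exact h.1
  | succ k ih => exact ⟨h.1, ih h.2⟩

theorem of_le {l : ℕ} (h : Bd l b M) (hk : k ≤ l) : Bd k b M := by
  induction hk with
  | refl => exact h
  | step _ ih => exact ih h.of_succ

theorem deriv (h : Bd (k + 1) b M) : Bd k (deriv b) M := h.2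

theorem const {a : ℝ} (h : |a| ≤ M) : Bd k (fun _ => a) M := by
  induction k generalizing a with
  | zero => exact fun _ => h
  | succ k ih =>
    refine ⟨fun _ => h, ?_⟩
    rw [deriv_const']
    exact ih (by rw [abs_zero]; exact (abs_nonneg a).trans h)

theorem add (hb : ContDiff ℝ ∞ b) (hc : ContDiff ℝ ∞ c) (h : Bd k b M) (h' : Bd k c N) :
    Bd k (b + c) (M + N) := by
  induction k generalizing b c with
  | zero => exact fun t => (abs_add_le _ _).trans (add_le_add (h t) (h' t))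
  | succ k ih =>
    refine ⟨fun t => (abs_add_le _ _).trans (add_le_add (h.1 t) (h'.1 t)), ?_⟩
    have : _root_.deriv (b + c) = _root_.deriv b + _root_.deriv c := by
      ext t; exact deriv_add (cd_diff hb t) (cd_diff hc t)
    rw [this]
    exact ih (cd_deriv hb) (cd_deriv hc) h.2 h'.2

theorem smul (a : ℝ) (h : Bd k b M) : Bd k (a • b) (|a| * M) := by
  have h0 : ∀ {b : ℝ → ℝ}, (∀ t, |b t| ≤ M) → ∀ t, |(a • b) t| ≤ |a| * M := fun h t => by
    rw [Pi.smul_apply, smul_eq_mul, abs_mul]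
    exact mul_le_mul_of_nonneg_left (h t) (abs_nonneg a)
  induction k generalizing b with
  | zero => exact h0 h
  | succ k ih =>
    refine ⟨h0 h.1, ?_⟩
    have : _root_.deriv (a • b) = a • _root_.deriv b := by
      ext t; exact deriv_const_smul_field a b ▸ rfl
    rw [this]
    exact ih h.2

theorem neg (h : Bd k b M) : Bd k (-b) M := by
  have := h.smul (-1)
  simpa using this

theorem sub (hb : ContDiff ℝ ∞ b) (hc : ContDiff ℝ ∞ c) (h : Bd k b M) (h' : Bd k c N) :
    Bd k (b - c) (M + N) := by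
  rw [sub_eq_add_neg]; exact add hb hc.neg h h'.neg

theorem mul (hb : ContDiff ℝ ∞ b) (hc : ContDiff ℝ ∞ c) (h : Bd k b M) (h' : Bd k c N) :
    Bd k (b * c) (2 ^ k * M * N) := by
  have h0 : ∀ {k : ℕ} {b c : ℝ → ℝ}, Bd k b M → Bd k c N → ∀ t, |(b * c) t| ≤ M * N :=
    fun h h' t => by
      rw [Pi.mul_apply, abs_mul]
      exact mul_le_mul (h.abs_le t) (h'.abs_le t) (abs_nonneg _) h.nonneg
  induction k generalizing b c with
  | zero => intro t; simpa using h0 h h' t
  | succ k ih =>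
    have hMN : 0 ≤ M * N := mul_nonneg h.nonneg h'.nonneg
    refine ⟨fun t => (h0 h h' t).trans ?_, ?_⟩
    · rw [mul_assoc]; exact le_mul_of_one_le_left hMN (one_le_pow₀ one_le_two)
    have : _root_.deriv (b * c) = _root_.deriv b * c + b * _root_.deriv c := by
      ext t; exact deriv_mul (cd_diff hb t) (cd_diff hc t)
    rw [this]
    have h1 := ih (cd_deriv hb) hc h.2 h'.of_succ
    have h2 := ih hb (cd_deriv hc) h.of_succ h'.2
    refine (add ((cd_deriv hb).mul hc) (hb.mul (cd_deriv hc)) h1 h2).mono (le_of_eq ?_)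
    ring

end Bd

theorem deriv_aff (b : ℝ → ℝ) (a c : ℝ) :
    deriv (fun t => b (a * t + c)) = a • fun t => deriv b (a * t + c) := by
  ext t
  have h1 := deriv_comp_mul_left (f := fun u => b (u + c)) (c := a) (x := t)
  rw [deriv_comp_add_const] at h1
  exact h1

theorem Bd.aff {k : ℕ} {b : ℝ → ℝ} {M : ℝ} (h : Bd k b M) {a : ℝ} (ha : |a| ≤ 1) (c : ℝ) :
    Bd k (fun t => b (a * t + c)) M := by
  induction k generalizing b with
  | zero => exact fun t => h _
  | succ k ih =>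
    refine ⟨fun t => h.1 _, ?_⟩
    rw [deriv_aff]
    exact ((ih h.2).smul a).mono (mul_le_of_le_one_left h.nonneg ha)

/-- The derivative of a rescaled function is small. -/
theorem Bd.deriv_aff {k : ℕ} {b : ℝ → ℝ} {M : ℝ} (h : Bd (k + 1) b M) {a : ℝ} (ha : |a| ≤ 1)
    (c : ℝ) : Bd k (_root_.deriv fun t => b (a * t + c)) (|a| * M) := by
  rw [Neck67.deriv_aff]
  exact (h.2.aff ha c).smul a

theorem cd_aff {b : ℝ → ℝ} (h : ContDiff ℝ ∞ b) (a c : ℝ) :
    ContDiff ℝ ∞ fun t => b (a * t + c) :=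
  h.comp ((contDiff_const.mul contDiff_id).add contDiff_const)

theorem bd_of_cpt {b : ℝ → ℝ} (h : ContDiff ℝ ∞ b) (hc : HasCompactSupport b) (k : ℕ) :
    ∃ M, Bd k b M := by
  induction k generalizing b with
  | zero => exact h.continuous.bounded_above_of_compact_support hc
  | succ k ih =>
    obtain ⟨M, hM⟩ := h.continuous.bounded_above_of_compact_support hc
    obtain ⟨N, hN⟩ := ih (cd_deriv h) hc.deriv
    exact ⟨max M N, fun t => (hM t).trans (le_max_left _ _), hN.mono (le_max_right _ _)⟩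

/-- A function that vanishes off a closed set has a derivative that vanishes off it. -/
theorem deriv_zero_off {b : ℝ → ℝ} {K : Set ℝ} (hK : IsClosed K) {a : ℝ}
    (h : ∀ t, t ∉ K → b t = a) (t : ℝ) (ht : t ∉ K) : deriv b t = 0 := by
  have : b =ᶠ[nhds t] fun _ => a :=
    Filter.eventually_of_mem (hK.isOpen_compl.mem_nhds ht) h
  rw [this.deriv_eq, deriv_const]

namespace Sm

variable {b c : ℝ → ℝ}

theorem diff (h : Sm b) : Differentiable ℝ b := cd_diff h.cd

theorem deriv (h : Sm b) : Sm (deriv b) :=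
  ⟨cd_deriv h.cd, fun k => (h.bd (k + 1)).imp fun _ hM => hM.2⟩

theorem const (a : ℝ) : Sm fun _ => a := ⟨contDiff_const, fun _ => ⟨|a|, Bd.const le_rfl⟩⟩

theorem one : Sm 1 := const 1

theorem zero : Sm 0 := const 0

theorem add (h : Sm b) (h' : Sm c) : Sm (b + c) :=
  ⟨h.cd.add h'.cd, fun k => by
    obtain ⟨M, hM⟩ := h.bd k
    obtain ⟨N, hN⟩ := h'.bd k
    exact ⟨_, Bd.add h.cd h'.cd hM hN⟩⟩

theorem mul (h : Sm b) (h' : Sm c) : Sm (b * c) :=
  ⟨h.cd.mul h'.cd, fun k => by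
    obtain ⟨M, hM⟩ := h.bd k
    obtain ⟨N, hN⟩ := h'.bd k
    exact ⟨_, Bd.mul h.cd h'.cd hM hN⟩⟩

theorem smul (a : ℝ) (h : Sm b) : Sm (a • b) :=
  ⟨h.cd.const_smul a, fun k => by
    obtain ⟨M, hM⟩ := h.bd k
    exact ⟨_, hM.smul a⟩⟩

theorem neg (h : Sm b) : Sm (-b) :=
  ⟨h.cd.neg, fun k => (h.bd k).imp fun _ hM => hM.neg⟩

theorem sub (h : Sm b) (h' : Sm c) : Sm (b - c) := by
  rw [sub_eq_add_neg]; exact h.add h'.neg

theorem aff (h : Sm b) {a : ℝ} (ha : |a| ≤ 1) (c : ℝ) : Sm fun t => b (a * t + c) :=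
  ⟨cd_aff h.cd a c, fun k => (h.bd k).imp fun _ hM => hM.aff ha c⟩

theorem of_cpt (h : ContDiff ℝ ∞ b) (hc : HasCompactSupport b) : Sm b := ⟨h, bd_of_cpt h hc⟩

/-- Smooth, bounded, with compactly supported derivative. -/
theorem of_deriv_cpt (h : ContDiff ℝ ∞ b) {M : ℝ} (hM : ∀ t, |b t| ≤ M)
    (hc : HasCompactSupport (_root_.deriv b)) : Sm b := by
  refine ⟨h, fun k => ?_⟩
  cases k with
  | zero => exact ⟨M, hM⟩
  | succ k =>
    obtain ⟨N, hN⟩ := bd_of_cpt (cd_deriv h) hc k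
    exact ⟨max M N, fun t => (hM t).trans (le_max_left _ _), hN.mono (le_max_right _ _)⟩

/-- Smooth, bounded and constant near both ends. -/
theorem of_ends (h : ContDiff ℝ ∞ b) {M p q a a' : ℝ} (hM : ∀ t, |b t| ≤ M)
    (h1 : ∀ t, t ≤ p → b t = a) (h2 : ∀ t, q ≤ t → b t = a') : Sm b := by
  refine of_deriv_cpt h hM (HasCompactSupport.intro (isCompact_Icc (a := p) (b := q)) ?_)
  intro t ht
  rw [mem_Icc, not_and_or, not_le, not_le] at ht
  rcases ht with ht | ht
  · exact deriv_zero_off isClosed_Ici (fun u hu => h1 u (not_le.1 hu).le) t (not_le.2 ht)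
  · exact deriv_zero_off isClosed_Iic (fun u hu => h2 u (not_le.1 hu).le) t (not_le.2 ht)

end Sm

/-- Exponential weights: only the logarithmic derivative and the size of the weight on the
support enter. -/
theorem Bd.mul_exp {k : ℕ} {h f : ℝ → ℝ} {H N A : ℝ} {K : Set ℝ} (hK : IsClosed K)
    (hh : ContDiff ℝ ∞ h) (hf : ContDiff ℝ ∞ f) (bh : Bd k h H) (bf : Bd k (_root_.deriv f) N)
    (h0 : ∀ t, t ∉ K → h t = 0) (hA : ∀ t ∈ K, f t ≤ A) :
    Bd k (h * fun t => exp (f t)) ((1 + 2 ^ k * N) ^ k * H * exp A) := by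
  have a0 : ∀ {k : ℕ} {h : ℝ → ℝ} {H : ℝ}, Bd k h H → (∀ t, t ∉ K → h t = 0) →
      ∀ t, |(h * fun t => exp (f t)) t| ≤ H * exp A := by
    intro k h H bh h0 t
    rw [Pi.mul_apply, abs_mul, abs_of_pos (exp_pos _)]
    by_cases ht : t ∈ K
    · exact mul_le_mul (bh.abs_le t) (exp_le_exp.2 (hA t ht)) (exp_pos _).le bh.nonneg
    · rw [h0 t ht, abs_zero, zero_mul]; exact mul_nonneg bh.nonneg (exp_pos _).le
  induction k generalizing h H with
  | zero => intro t; simpa using a0 bh h0 t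
  | succ k ih =>
    have hN := bf.nonneg
    have hH := bh.nonneg
    have e1 : (1 : ℝ) ≤ 1 + 2 ^ (k + 1) * N := le_add_of_nonneg_right (by positivity)
    refine ⟨fun t => (a0 bh h0 t).trans ?_, ?_⟩
    · rw [mul_assoc]
      exact le_mul_of_one_le_left (mul_nonneg hH (exp_pos _).le) (one_le_pow₀ e1)
    have : _root_.deriv (h * fun t => exp (f t)) =
        (_root_.deriv h + h * _root_.deriv f) * fun t => exp (f t) := by
      ext t
      have d1 : HasDerivAt (fun t => exp (f t)) (exp (f t) * _root_.deriv f t) t :=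
        (cd_diff hf t).hasDerivAt.exp
      rw [((cd_diff hh t).hasDerivAt.mul d1).deriv]
      simp only [Pi.mul_apply, Pi.add_apply]; ring
    rw [this]
    have b1 := Bd.add (cd_deriv hh) (hh.mul (cd_deriv hf)) bh.2
      (Bd.mul hh (cd_deriv hf) bh.of_succ bf.of_succ)
    have h1 := ih ((cd_deriv hh).add (hh.mul (cd_deriv hf))) b1 bf.of_succ (fun t ht => by
      simp only [deriv_zero_off hK h0 t ht, h0 t ht]; simp)
    refine h1.mono (mul_le_mul_of_nonneg_right ?_ (exp_pos _).le)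
    have e2 : (1 : ℝ) + 2 ^ k * N ≤ 1 + 2 ^ (k + 1) * N := by
      have : (2 : ℝ) ^ k ≤ 2 ^ (k + 1) := pow_le_pow_right₀ one_le_two (Nat.le_succ k)
      nlinarith
    have e3 : (0 : ℝ) ≤ 1 + 2 ^ k * N := by positivity
    calc (1 + 2 ^ k * N) ^ k * (H + 2 ^ k * H * N) = (1 + 2 ^ k * N) ^ (k + 1) * H := by ring
      _ ≤ _ := mul_le_mul_of_nonneg_right (pow_le_pow_left₀ e3 e2 _) hH

theorem Sm.exp {f : ℝ → ℝ} (hf : Sm f) : Sm fun t => exp (f t) := by
  refine ⟨hf.cd.exp, fun k => ?_⟩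
  obtain ⟨N, hN⟩ := hf.deriv.bd k
  obtain ⟨A, hA⟩ := hf.bd 0
  have := Bd.mul_exp (k := k) (h := fun _ => 1) (K := univ) isClosed_univ contDiff_const hf.cd
    (Bd.const (M := 1) (by simp)) hN (fun t ht => (ht trivial).elim)
    (fun t _ => (le_abs_self _).trans (hA t))
  have e : ((fun _ => 1) * fun t => Real.exp (f t)) = fun t => Real.exp (f t) := by
    ext t; simp
  rw [e] at this
  exact ⟨_, this⟩

/-- The standard step: `0` on `(-∞, 0]`, `1` on `[1, ∞)`. -/
theorem sm_step : Sm smoothTransition :=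
  Sm.of_ends smoothTransition.contDiff (M := 1) (p := 0) (q := 1)
    (fun t => by
      rw [abs_of_nonneg (smoothTransition.nonneg t)]; exact smoothTransition.le_one t)
    (fun _ => smoothTransition.zero_of_nonpos) (fun _ => smoothTransition.one_of_one_le)

/-- The step going from `0` at `p` to `1` at `p + a`. -/
noncomputable def up (p a : ℝ) (t : ℝ) : ℝ := smoothTransition (a⁻¹ * t + -(a⁻¹ * p))

/-- The step going from `1` at `q - a` to `0` at `q`. -/
noncomputable def dn (q a : ℝ) (t : ℝ) : ℝ := smoothTransition (-a⁻¹ * t + a⁻¹ * q)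

section Steps

variable {p q a t : ℝ}

theorem abs_inv_le (ha : 1 ≤ a) : |a⁻¹| ≤ 1 := by
  rw [abs_of_pos (by positivity)]; exact inv_le_one_of_one_le₀ ha

theorem up_zero (ha : 0 < a) (h : t ≤ p) : up p a t = 0 :=
  smoothTransition.zero_of_nonpos (by nlinarith [inv_pos.2 ha])

theorem up_one (ha : 0 < a) (h : p + a ≤ t) : up p a t = 1 :=
  smoothTransition.one_of_one_le (by
    have : a⁻¹ * a = 1 := inv_mul_cancel₀ ha.ne'
    nlinarith [inv_pos.2 ha])

theorem dn_zero (ha : 0 < a) (h : q ≤ t) : dn q a t = 0 :=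
  smoothTransition.zero_of_nonpos (by nlinarith [inv_pos.2 ha])

theorem dn_one (ha : 0 < a) (h : t ≤ q - a) : dn q a t = 1 :=
  smoothTransition.one_of_one_le (by
    have : a⁻¹ * a = 1 := inv_mul_cancel₀ ha.ne'
    nlinarith [inv_pos.2 ha])

theorem up_mem (p a t : ℝ) : 0 ≤ up p a t ∧ up p a t ≤ 1 :=
  ⟨smoothTransition.nonneg _, smoothTransition.le_one _⟩

theorem dn_mem (q a t : ℝ) : 0 ≤ dn q a t ∧ dn q a t ≤ 1 :=
  ⟨smoothTransition.nonneg _, smoothTransition.le_one _⟩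

theorem sm_up (ha : 1 ≤ a) (p : ℝ) : Sm (up p a) := sm_step.aff (abs_inv_le ha) _

theorem sm_dn (ha : 1 ≤ a) (q : ℝ) : Sm (dn q a) :=
  sm_step.aff (by rw [abs_neg]; exact abs_inv_le ha) _

/-- The universal constant of the steps. -/
noncomputable def cS (k : ℕ) : ℝ := max 1 (sm_step.bd (k + 1)).choose

theorem one_le_cS (k : ℕ) : 1 ≤ cS k := le_max_left _ _

theorem bd_step (k : ℕ) : Bd (k + 1) smoothTransition (cS k) :=
  (sm_step.bd (k + 1)).choose_spec.mono (le_max_right _ _)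

theorem bd_up (k : ℕ) (ha : 1 ≤ a) (p : ℝ) : Bd (k + 1) (up p a) (cS k) :=
  (bd_step k).aff (abs_inv_le ha) _

theorem bd_dn (k : ℕ) (ha : 1 ≤ a) (q : ℝ) : Bd (k + 1) (dn q a) (cS k) :=
  (bd_step k).aff (by rw [abs_neg]; exact abs_inv_le ha) _

theorem bd_deriv_up (k : ℕ) (ha : 1 ≤ a) (p : ℝ) : Bd k (deriv (up p a)) (a⁻¹ * cS k) := by
  have := (bd_step k).deriv_aff (abs_inv_le ha) (-(a⁻¹ * p))
  rwa [abs_of_pos (by positivity)] at this

theorem bd_deriv_dn (k : ℕ) (ha : 1 ≤ a) (q : ℝ) : Bd k (deriv (dn q a)) (a⁻¹ * cS k) := by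
  have := (bd_step k).deriv_aff (a := -a⁻¹) (by rw [abs_neg]; exact abs_inv_le ha) (a⁻¹ * q)
  rwa [abs_neg, abs_of_pos (by positivity)] at this

end Steps

/-- A rotation pair on `[p, q]`: `(c, s) = (1, 0)` left of `p`, `(0, 1)` right of `q`. -/
structure RotP (c s : ℝ → ℝ) (p q : ℝ) : Prop where
  smc : Sm c
  sms : Sm s
  sq : c * c + s * s = 1
  c1 : ∀ t, t ≤ p → c t = 1
  s0 : ∀ t, t ≤ p → s t = 0
  c0 : ∀ t, q ≤ t → c t = 0
  s1 : ∀ t, q ≤ t → s t = 1

theorem sm_cos_step : Sm fun t => cos (Real.pi / 2 * smoothTransition t) :=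
  Sm.of_ends (contDiff_cos.comp (contDiff_const.mul smoothTransition.contDiff)) (M := 1)
    (p := 0) (q := 1) (a := 1) (a' := 0) (fun _ => abs_cos_le_one _)
    (fun t ht => by rw [smoothTransition.zero_of_nonpos ht]; simp)
    (fun t ht => by rw [smoothTransition.one_of_one_le ht]; simp)

theorem sm_sin_step : Sm fun t => sin (Real.pi / 2 * smoothTransition t) :=
  Sm.of_ends (contDiff_sin.comp (contDiff_const.mul smoothTransition.contDiff)) (M := 1)
    (p := 0) (q := 1) (a := 0) (a' := 1) (fun _ => abs_sin_le_one _)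
    (fun t ht => by rw [smoothTransition.zero_of_nonpos ht]; simp)
    (fun t ht => by rw [smoothTransition.one_of_one_le ht]; simp)

/-- Rotation pairs on `[p, p + a]` with bounds uniform in `a ≥ 1`, derivatives `O(1 / a)`. -/
theorem exists_rot (k : ℕ) : ∃ M, 1 ≤ M ∧ ∀ p a : ℝ, 1 ≤ a → ∃ c s, RotP c s p (p + a) ∧
    Bd k c M ∧ Bd k s M ∧ Bd k (deriv c) (a⁻¹ * M) ∧ Bd k (deriv s) (a⁻¹ * M) := by
  obtain ⟨M₁, h1⟩ := sm_cos_step.bd (k + 1)
  obtain ⟨M₂, h2⟩ := sm_sin_step.bd (k + 1)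
  set M := max 1 (max M₁ M₂)
  replace h1 : Bd (k + 1) _ M := h1.mono ((le_max_left _ _).trans (le_max_right _ _))
  replace h2 : Bd (k + 1) _ M := h2.mono ((le_max_right _ _).trans (le_max_right _ _))
  refine ⟨M, le_max_left _ _, fun p a ha => ?_⟩
  have ha0 : 0 < a := by linarith
  have hi := abs_inv_le ha
  refine ⟨fun t => cos (Real.pi / 2 * up p a t), fun t => sin (Real.pi / 2 * up p a t),
    ⟨sm_cos_step.aff hi _, sm_sin_step.aff hi _, ?_, ?_, ?_, ?_, ?_⟩,
    h1.of_succ.aff hi _, h2.of_succ.aff hi _, ?_, ?_⟩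
  · ext t
    simp only [Pi.add_apply, Pi.mul_apply, Pi.one_apply]
    nlinarith [cos_sq_add_sin_sq (Real.pi / 2 * up p a t)]
  · intro t ht; rw [up_zero ha0 ht]; simp
  · intro t ht; rw [up_zero ha0 ht]; simp
  · intro t ht; rw [up_one ha0 ht]; simp
  · intro t ht; rw [up_one ha0 ht]; simp
  · have := h1.deriv_aff hi (-(a⁻¹ * p))
    rwa [abs_of_pos (by positivity)] at this
  · have := h2.deriv_aff hi (-(a⁻¹ * p))
    rwa [abs_of_pos (by positivity)] at this

end Crest.Agent.X212.Neck67
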