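import Mathlib.Analysis.Calculus.MeanValue
import Mathlib.Topology.MetricSpace.Contracting
import Mathlib.Analysis.Normed.Ring.Units
import Mathlib.Analysis.Normed.Operator.Banach
import Mathlib.Analysis.Calculus.FDeriv.Prod
import Mathlib.Analysis.Calculus.FDeriv.Comp
import Mathlib.Analysis.Calculus.FDeriv.Add

/-!
# Row 212, NECKABS (helper67): quantitative Newton-Picard lemma and the filled map

`Near L s s' x₀ r`: on the closed ball `s` is differentiable and its derivative is within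
`1 / (2 ‖L⁻¹‖)` of the isomorphism `L`.  Then `s` is injective on the ball, hits every point within
`r / (2 ‖L⁻¹‖)` of `s x₀`, and all derivatives are invertible with inverse bounded by `2 ‖L⁻¹‖`.
All constants are explicit, so the statement is uniform in the length of a neck.
-/

set_option autoImplicit false

namespace Crest.Agent.X212.Neck67

open Metric Set

variable {E F : Type*} [NormedAddCommGroup E] [NormedSpace ℝ E]
  [NormedAddCommGroup F] [NormedSpace ℝ F]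

/-- An operator within `1 / (2 ‖L⁻¹‖)` of an isomorphism is bounded below. -/
theorem low_of_close (L : E ≃L[ℝ] F) {A : E →L[ℝ] F}
    (h : ‖(L.symm : F →L[ℝ] E)‖ * ‖A - L‖ ≤ 1 / 2) (v : E) :
    ‖v‖ ≤ 2 * ‖(L.symm : F →L[ℝ] E)‖ * ‖A v‖ := by
  have h1 : v = L.symm (A v) - L.symm ((A - (L : E →L[ℝ] F)) v) := by simp
  have h2 : ‖L.symm (A v)‖ ≤ ‖(L.symm : F →L[ℝ] E)‖ * ‖A v‖ :=
    (L.symm : F →L[ℝ] E).le_opNorm _
  have h3 : ‖L.symm ((A - (L : E →L[ℝ] F)) v)‖ ≤ ‖(L.symm : F →L[ℝ] E)‖ * (‖A - L‖ * ‖v‖) :=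
    ((L.symm : F →L[ℝ] E).le_opNorm _).trans
      (mul_le_mul_of_nonneg_left ((A - (L : E →L[ℝ] F)).le_opNorm v) (norm_nonneg _))
  have h4 : ‖v‖ ≤ ‖L.symm (A v)‖ + ‖L.symm ((A - (L : E →L[ℝ] F)) v)‖ := by
    conv_lhs => rw [h1]
    exact norm_sub_le _ _
  have h5 : ‖(L.symm : F →L[ℝ] E)‖ * (‖A - L‖ * ‖v‖) ≤ 1 / 2 * ‖v‖ := by
    rw [← mul_assoc]; exact mul_le_mul_of_nonneg_right h (norm_nonneg v)
  linarith

/-- An operator within `1 / (2 ‖L⁻¹‖)` of an isomorphism is an isomorphism, with the norm of the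
inverse at most doubled. -/
theorem inv_of_close [CompleteSpace E] (L : E ≃L[ℝ] F) {A : E →L[ℝ] F}
    (h : ‖(L.symm : F →L[ℝ] E)‖ * ‖A - L‖ ≤ 1 / 2) :
    ∃ e : E ≃L[ℝ] F, (e : E →L[ℝ] F) = A ∧
      ‖(e.symm : F →L[ℝ] E)‖ ≤ 2 * ‖(L.symm : F →L[ℝ] E)‖ := by
  have hK : ‖-((L.symm : F →L[ℝ] E).comp (A - (L : E →L[ℝ] F)))‖ < 1 := by
    rw [norm_neg]
    exact ((ContinuousLinearMap.opNorm_comp_le _ _).trans h).trans_lt (by norm_num)
  let u : (E →L[ℝ] E)ˣ := Units.oneSub _ hK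
  let e₀ : E ≃L[ℝ] E := ContinuousLinearEquiv.unitsEquiv ℝ E u
  have he₀ : ∀ v, e₀ v = v + L.symm ((A - (L : E →L[ℝ] F)) v) := by
    intro v
    change (1 - -((L.symm : F →L[ℝ] E).comp (A - (L : E →L[ℝ] F)))) v = _
    simp
  have hA : ((e₀.trans L : E ≃L[ℝ] F) : E →L[ℝ] F) = A := by
    ext v
    simp [he₀]
  refine ⟨e₀.trans L, hA, ?_⟩
  refine ContinuousLinearMap.opNorm_le_bound _ (by positivity) fun y => ?_
  have := low_of_close L h ((e₀.trans L).symm y)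
  rw [← hA] at this
  simpa only [ContinuousLinearEquiv.coe_coe, ContinuousLinearEquiv.apply_symm_apply] using this

/-- `s` is `C¹`-close to the isomorphism `L` on the closed ball of radius `r` about `x₀`. -/
structure Near (L : E ≃L[ℝ] F) (s : E → F) (s' : E → E →L[ℝ] F) (x₀ : E) (r : ℝ) : Prop where
  hd : ∀ x ∈ closedBall x₀ r, HasFDerivAt s (s' x) x
  hc : ∀ x ∈ closedBall x₀ r, ‖(L.symm : F →L[ℝ] E)‖ * ‖s' x - L‖ ≤ 1 / 2

namespace Near

variable {L : E ≃L[ℝ] F} {s : E → F} {s' : E → E →L[ℝ] F} {x₀ : E} {r : ℝ}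

theorem mono (h : Near L s s' x₀ r) {r' : ℝ} (hr : r' ≤ r) : Near L s s' x₀ r' :=
  ⟨fun x hx => h.hd x (closedBall_subset_closedBall hr hx),
    fun x hx => h.hc x (closedBall_subset_closedBall hr hx)⟩

/-- The Newton map is a `1/2`-contraction on the ball. -/
theorem ctr (h : Near L s s' x₀ r) {x y : E} (hx : x ∈ closedBall x₀ r)
    (hy : y ∈ closedBall x₀ r) :
    ‖(y - L.symm (s y)) - (x - L.symm (s x))‖ ≤ 1 / 2 * ‖y - x‖ := by
  have hd : ∀ z ∈ closedBall x₀ r, HasFDerivWithinAt (fun z => z - L.symm (s z))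
      (-((L.symm : F →L[ℝ] E).comp (s' z - (L : E →L[ℝ] F)))) (closedBall x₀ r) z := by
    intro z hz
    have h1 := (hasFDerivAt_id z).sub
      ((L.symm : F →L[ℝ] E).hasFDerivAt.comp z (h.hd z hz))
    have h2 : ContinuousLinearMap.id ℝ E - (L.symm : F →L[ℝ] E).comp (s' z) =
        -((L.symm : F →L[ℝ] E).comp (s' z - (L : E →L[ℝ] F))) := by
      ext v; simp
    rw [h2] at h1
    exact h1.hasFDerivWithinAt
  refine (convex_closedBall x₀ r).norm_image_sub_le_of_norm_hasFDerivWithin_le hd ?_ hx hy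
  intro z hz
  rw [norm_neg]
  exact (ContinuousLinearMap.opNorm_comp_le _ _).trans (h.hc z hz)

/-- Lower Lipschitz bound. -/
theorem low (h : Near L s s' x₀ r) {x y : E} (hx : x ∈ closedBall x₀ r)
    (hy : y ∈ closedBall x₀ r) :
    ‖y - x‖ ≤ 2 * ‖(L.symm : F →L[ℝ] E)‖ * ‖s y - s x‖ := by
  have h1 := h.ctr hx hy
  have h2 : ‖L.symm (s y - s x)‖ ≤ ‖(L.symm : F →L[ℝ] E)‖ * ‖s y - s x‖ :=
    (L.symm : F →L[ℝ] E).le_opNorm _
  have h3 : y - x = ((y - L.symm (s y)) - (x - L.symm (s x))) + L.symm (s y - s x) := by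
    rw [map_sub]; abel
  have h4 : ‖y - x‖ ≤ ‖(y - L.symm (s y)) - (x - L.symm (s x))‖ + ‖L.symm (s y - s x)‖ := by
    conv_lhs => rw [h3]
    exact norm_add_le _ _
  linarith

theorem injOn (h : Near L s s' x₀ r) : InjOn s (closedBall x₀ r) := by
  intro x hx y hy e
  have := h.low hx hy
  rw [e, sub_self, norm_zero, mul_zero] at this
  exact (sub_eq_zero.1 (norm_le_zero_iff.1 this)).symm

/-- Existence: every value within `r / (2 ‖L⁻¹‖)` of `s x₀` is attained in the ball. -/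
theorem ex [CompleteSpace E] (h : Near L s s' x₀ r) {y : F}
    (hy : 2 * ‖(L.symm : F →L[ℝ] E)‖ * ‖s x₀ - y‖ ≤ r) :
    ∃ x ∈ closedBall x₀ r, s x = y := by
  have hr : 0 ≤ r := le_trans (by positivity) hy
  set T : E → E := fun z => z - L.symm (s z) + L.symm y with hT
  have hx₀ : x₀ ∈ closedBall x₀ r := mem_closedBall_self hr
  have hc : ∀ a ∈ closedBall x₀ r, ∀ b ∈ closedBall x₀ r, ‖T b - T a‖ ≤ 1 / 2 * ‖b - a‖ := by
    intro a ha b hb
    have := h.ctr ha hb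
    simpa only [hT, add_sub_add_right_eq_sub] using this
  have hm : MapsTo T (closedBall x₀ r) (closedBall x₀ r) := by
    intro z hz
    rw [mem_closedBall, dist_eq_norm] at hz ⊢
    have h1 := hc x₀ hx₀ z (by rwa [mem_closedBall, dist_eq_norm])
    have h2 : T x₀ - x₀ = -L.symm (s x₀ - y) := by
      simp only [hT, map_sub]; abel
    have h3 : ‖L.symm (s x₀ - y)‖ ≤ ‖(L.symm : F →L[ℝ] E)‖ * ‖s x₀ - y‖ :=
      (L.symm : F →L[ℝ] E).le_opNorm _
    have h4 : ‖T z - x₀‖ ≤ ‖T z - T x₀‖ + ‖T x₀ - x₀‖ := norm_sub_le_norm_sub_add_norm_sub _ _ _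
    rw [h2, norm_neg] at h4
    linarith
  have hC : ContractingWith (1 / 2 : NNReal) (hm.restrict T _ _) := by
    refine ⟨by norm_num, LipschitzWith.of_dist_le_mul fun a b => ?_⟩
    have := hc b.1 b.2 a.1 a.2
    rw [Subtype.dist_eq, Subtype.dist_eq, dist_eq_norm, dist_eq_norm]
    simpa using this
  obtain ⟨x, hx, hfix, -⟩ := ContractingWith.exists_fixedPoint' isClosed_closedBall.isComplete hm
    hC hx₀ (edist_ne_top _ _)
  refine ⟨x, hx, ?_⟩
  have h5 : x - L.symm (s x) + L.symm y = x := hfix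
  have h6 : L.symm (s x) = L.symm y := by
    have : L.symm (s x) = L.symm y + (x - (x - L.symm (s x) + L.symm y)) := by abel
    rw [this, h5, sub_self, add_zero]
  exact L.symm.injective h6

theorem exu [CompleteSpace E] (h : Near L s s' x₀ r) {y : F}
    (hy : 2 * ‖(L.symm : F →L[ℝ] E)‖ * ‖s x₀ - y‖ ≤ r) :
    ∃! x, x ∈ closedBall x₀ r ∧ s x = y := by
  obtain ⟨x, hx, e⟩ := h.ex hy
  exact ⟨x, ⟨hx, e⟩, fun z hz => h.injOn hz.1 hx (hz.2.trans e.symm)⟩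

/-- A solution in the ball is close to the centre when the centre is an approximate solution. -/
theorem dist_le (h : Near L s s' x₀ r) {x : E} (hx : x ∈ closedBall x₀ r) :
    ‖x - x₀‖ ≤ 2 * ‖(L.symm : F →L[ℝ] E)‖ * ‖s x - s x₀‖ :=
  h.low (mem_closedBall_self (le_trans dist_nonneg hx)) hx

/-- All derivatives on the ball are invertible, uniformly. -/
theorem inv [CompleteSpace E] (h : Near L s s' x₀ r) {x : E} (hx : x ∈ closedBall x₀ r) :
    ∃ e : E ≃L[ℝ] F, (e : E →L[ℝ] F) = s' x ∧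
      ‖(e.symm : F →L[ℝ] E)‖ ≤ 2 * ‖(L.symm : F →L[ℝ] E)‖ :=
  inv_of_close L (h.hc x hx)

/-- A `C¹`-small change of the map keeps `Near`, when there is room. -/
theorem of_close {t : E → F} {t' : E → E →L[ℝ] F} {a b : ℝ}
    (hd : ∀ x ∈ closedBall x₀ r, HasFDerivAt t (t' x) x)
    (h1 : ∀ x ∈ closedBall x₀ r, ‖s' x - L‖ ≤ a)
    (h2 : ∀ x ∈ closedBall x₀ r, ‖t' x - s' x‖ ≤ b)
    (hab : ‖(L.symm : F →L[ℝ] E)‖ * (a + b) ≤ 1 / 2) : Near L t t' x₀ r := by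
  refine ⟨hd, fun x hx => le_trans (mul_le_mul_of_nonneg_left ?_ (norm_nonneg _)) hab⟩
  have := norm_sub_le_norm_sub_add_norm_sub (t' x) (s' x) (L : E →L[ℝ] F)
  linarith [h1 x hx, h2 x hx]

end Near

/-- A `C¹` map with invertible derivative at `x₀` has derivative within any `a > 0` of it on a
small closed ball. -/
theorem exists_ball_close {s' : E → E →L[ℝ] F} {x₀ : E} (hc : ContinuousAt s' x₀) {a : ℝ}
    (ha : 0 < a) : ∃ r > 0, ∀ x ∈ closedBall x₀ r, ‖s' x - s' x₀‖ ≤ a := by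
  obtain ⟨δ, hδ, h⟩ := Metric.continuousAt_iff.1 hc a ha
  refine ⟨δ / 2, by positivity, fun x hx => ?_⟩
  rw [← dist_eq_norm]
  exact (h (lt_of_le_of_lt hx (by linarith))).le

section Fill

variable {E₁ E₂ F₁ F₂ : Type*} [NormedAddCommGroup E₁] [NormedSpace ℝ E₁]
  [NormedAddCommGroup E₂] [NormedSpace ℝ E₂] [NormedAddCommGroup F₁] [NormedSpace ℝ F₁]
  [NormedAddCommGroup F₂] [NormedSpace ℝ F₂]

/-- The filled map: `s₁` on the glued space, the invertible `D` on the anti-glued one. -/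
def fill (Φ : E ≃L[ℝ] E₁ × E₂) (Ψ : F ≃L[ℝ] F₁ × F₂) (s₁ : E₁ → F₁) (D : E₂ →L[ℝ] F₂) (x : E) :
    F :=
  Ψ.symm (s₁ (Φ x).1, D (Φ x).2)

/-- Derivative of the filled map. -/
def fill' (Φ : E ≃L[ℝ] E₁ × E₂) (Ψ : F ≃L[ℝ] F₁ × F₂) (A : E₁ →L[ℝ] F₁) (D : E₂ →L[ℝ] F₂) :
    E →L[ℝ] F :=
  (Ψ.symm : F₁ × F₂ →L[ℝ] F).comp ((A.prodMap D).comp (Φ : E →L[ℝ] E₁ × E₂))

variable {Φ : E ≃L[ℝ] E₁ × E₂} {Ψ : F ≃L[ℝ] F₁ × F₂} {s₁ : E₁ → F₁} {D : E₂ →L[ℝ] F₂}

theorem fill'_apply (A : E₁ →L[ℝ] F₁) (v : E) :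
    fill' Φ Ψ A D v = Ψ.symm (A (Φ v).1, D (Φ v).2) := rfl

theorem hasFDerivAt_fill {A : E₁ →L[ℝ] F₁} {x : E} (h : HasFDerivAt s₁ A (Φ x).1) :
    HasFDerivAt (fill Φ Ψ s₁ D) (fill' Φ Ψ A D) x := by
  have h1 : HasFDerivAt (Prod.map s₁ D) (A.prodMap D) (Φ x) :=
    HasFDerivAt.prodMap (Φ x) h D.hasFDerivAt
  exact (Ψ.symm : F₁ × F₂ →L[ℝ] F).hasFDerivAt.comp x
    (h1.comp x (Φ : E →L[ℝ] E₁ × E₂).hasFDerivAt)

theorem fill_eq_zero (hD : Function.Injective D) {x : E} :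
    fill Φ Ψ s₁ D x = 0 ↔ s₁ (Φ x).1 = 0 ∧ (Φ x).2 = 0 := by
  unfold fill
  rw [map_eq_zero_iff _ Ψ.symm.injective, Prod.mk_eq_zero, map_eq_zero_iff _ hD]

/-- If the filled derivative is bijective, so is the glued one. -/
theorem bij_of_fill' {A : E₁ →L[ℝ] F₁} (h : Function.Bijective (fill' Φ Ψ A D)) :
    Function.Bijective A := by
  constructor
  · rw [injective_iff_map_eq_zero]
    intro a ha
    have h1 : fill' Φ Ψ A D (Φ.symm (a, 0)) = 0 := by simp [fill'_apply, ha]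
    have h2 : Φ.symm (a, 0) = 0 := (injective_iff_map_eq_zero _).1 h.1 _ h1
    have h3 := (map_eq_zero_iff _ Φ.symm.injective).1 h2
    exact (Prod.mk_eq_zero.1 h3).1
  · intro b
    obtain ⟨v, hv⟩ := h.2 (Ψ.symm (b, 0))
    rw [fill'_apply] at hv
    exact ⟨(Φ v).1, (Prod.mk.inj (Ψ.symm.injective hv)).1⟩

/-- **Abstract gluing theorem.**  If the filled map is `Near` an isomorphism on a ball and its
centre is an approximate zero, then `s₁` has exactly one zero `y` with `Φ⁻¹ (y, 0)` in the ball,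
and it is regular. -/
theorem glue_exu [CompleteSpace E] (hD : Function.Injective D) {L : E ≃L[ℝ] F}
    {s₁' : E₁ → E₁ →L[ℝ] F₁} {x₀ : E} {r : ℝ}
    (h : Near L (fill Φ Ψ s₁ D) (fun x => fill' Φ Ψ (s₁' (Φ x).1) D) x₀ r)
    (h0 : 2 * ‖(L.symm : F →L[ℝ] E)‖ * ‖fill Φ Ψ s₁ D x₀‖ ≤ r) :
    (∃! y, Φ.symm (y, 0) ∈ closedBall x₀ r ∧ s₁ y = 0) ∧
      ∀ y, Φ.symm (y, 0) ∈ closedBall x₀ r → Function.Bijective (s₁' y) := by
  constructor
  · obtain ⟨x, ⟨hx, e⟩, hu⟩ := h.exu (y := 0) (by rwa [sub_zero])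
    obtain ⟨e1, e2⟩ := (fill_eq_zero hD).1 e
    have hx' : Φ.symm ((Φ x).1, 0) = x := by
      rw [← e2]; exact Φ.symm_apply_apply x
    refine ⟨(Φ x).1, ⟨by rwa [hx'], e1⟩, fun y hy => ?_⟩
    have := hu (Φ.symm (y, 0)) ⟨hy.1, (fill_eq_zero hD).2 (by simpa using hy.2)⟩
    rw [← this]; simp
  · intro y hy
    obtain ⟨e, he, -⟩ := h.inv hy
    have hb : Function.Bijective (fill' Φ Ψ (s₁' (Φ (Φ.symm (y, 0))).1) D) := by
      rw [← he]; exact e.bijective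
    simpa using bij_of_fill' hb

end Fill

end Crest.Agent.X212.Neck67
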