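import Crest.Agent.X212.Neck67.Bd
import Crest.Agent.X212.Neck67.Newton
import Crest.Agent.R275.FredC_685

/-!
# Row 212, NECKABS (helper67): cut and paste by a rotation, excision for the index

`Mod K E k C`: a family of normed spaces `E i` (sections on manifolds `X i` carrying a neck
coordinate `t`) with the operators `m i j b : E j → E i`, "multiply by `b ∘ t` and transport",
for `b` vanishing off the set `K i j` of values of `t` over which `X i` and `X j` agree.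
For four spaces `L, R, T, Z` and a rotation pair `(c, s)` we get the isomorphism
`rot : E L × E R ≃ E T × E Z` (gluing and anti-gluing) and the excision theorem for the index.
-/

set_option autoImplicit false

namespace Crest.Agent.X212.Neck67

open Set Crest.Agent.R275.Fred685

/-- Admissible multipliers: smooth, all derivatives bounded, zero off `K`. -/
structure Adm (K : Set ℝ) (b : ℝ → ℝ) : Prop where
  sm : Sm b
  z : ∀ t, t ∉ K → b t = 0

namespace Adm

variable {K K' : Set ℝ} {b c : ℝ → ℝ}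

theorem mono (h : Adm K b) (hK : K ⊆ K') : Adm K' b := ⟨h.sm, fun t ht => h.z t fun a => ht (hK a)⟩

theorem mul_right (h : Adm K b) (hc : Sm c) : Adm K (b * c) :=
  ⟨h.sm.mul hc, fun t ht => by simp [h.z t ht]⟩

theorem mul_left (h : Adm K b) (hc : Sm c) : Adm K (c * b) :=
  ⟨hc.mul h.sm, fun t ht => by simp [h.z t ht]⟩

theorem add (h : Adm K b) (h' : Adm K c) : Adm K (b + c) :=
  ⟨h.sm.add h'.sm, fun t ht => by simp [h.z t ht, h'.z t ht]⟩

theorem smul (a : ℝ) (h : Adm K b) : Adm K (a • b) :=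
  ⟨h.sm.smul a, fun t ht => by simp [h.z t ht]⟩

theorem neg (h : Adm K b) : Adm K (-b) := ⟨h.sm.neg, fun t ht => by simp [h.z t ht]⟩

theorem zero : Adm K 0 := ⟨Sm.zero, fun _ _ => rfl⟩

theorem deriv (hK : IsClosed K) (h : Adm K b) : Adm K (deriv b) :=
  ⟨h.sm.deriv, deriv_zero_off hK h.z⟩

end Adm

theorem Sm.adm {b : ℝ → ℝ} (h : Sm b) : Adm univ b := ⟨h, fun _ ht => (ht trivial).elim⟩

/-- Where `b ≠ 0` the function `c` is locally `1`. -/
theorem mul_deriv_zero {b c : ℝ → ℝ} (hb : Continuous b) (h : b * c = b) : b * deriv c = 0 := by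
  ext t
  by_cases ht : b t = 0
  · simp [ht]
  · have h1 : c =ᶠ[nhds t] fun _ => 1 := by
      filter_upwards [hb.continuousAt.eventually_ne ht] with u hu
      have := congrFun h u
      exact mul_left_cancel₀ hu (by simpa using this)
    simp [h1.deriv_eq]

/-- Multiplication by functions of the neck coordinate, with transport. -/
structure Mod {ι : Type*} (K : ι → ι → Set ℝ) (E : ι → Type*) [∀ i, NormedAddCommGroup (E i)]
    [∀ i, NormedSpace ℝ (E i)] (k : ℕ) (C : ℝ) where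
  m : ∀ i j, (ℝ → ℝ) → E j →L[ℝ] E i
  diag : ∀ i, K i i = univ
  one : ∀ i, m i i 1 = ContinuousLinearMap.id ℝ (E i)
  add : ∀ {i j b c}, Adm (K i j) b → Adm (K i j) c → m i j (b + c) = m i j b + m i j c
  smul : ∀ {i j b} (a : ℝ), Adm (K i j) b → m i j (a • b) = a • m i j b
  mul : ∀ {i j l b c}, Adm (K i j) b → Adm (K j l) c → (m i j b).comp (m j l c) = m i l (b * c)
  bd : ∀ {i j b M}, Adm (K i j) b → Bd k b M → ‖m i j b‖ ≤ C * M

variable {ι : Type*} {K : ι → ι → Set ℝ} {E F : ι → Type*} [∀ i, NormedAddCommGroup (E i)]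
  [∀ i, NormedSpace ℝ (E i)] [∀ i, NormedAddCommGroup (F i)] [∀ i, NormedSpace ℝ (F i)]
  {k : ℕ} {C : ℝ}

namespace Mod

variable (M : Mod K E k C) {i j l : ι} {b c : ℝ → ℝ}

include M in
theorem adm (h : Sm b) (i : ι) : Adm (K i i) b := by rw [M.diag]; exact h.adm

theorem zero (i j : ι) : M.m i j 0 = 0 := by
  have := M.smul (i := i) (j := j) 0 Adm.zero
  simpa using this

theorem neg (h : Adm (K i j) b) : M.m i j (-b) = -M.m i j b := by
  have := M.smul (-1) h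
  simpa using this

theorem sub (h : Adm (K i j) b) (h' : Adm (K i j) c) :
    M.m i j (b - c) = M.m i j b - M.m i j c := by
  rw [sub_eq_add_neg, M.add h h'.neg, M.neg h', sub_eq_add_neg]

theorem mm (h : Adm (K i j) b) (h' : Adm (K j l) c) (u : E l) :
    M.m i j b (M.m j l c u) = M.m i l (b * c) u := by
  rw [← M.mul h h']; rfl

theorem le (h : Adm (K i j) b) {A : ℝ} (hb : Bd k b A) (u : E j) :
    ‖M.m i j b u‖ ≤ C * A * ‖u‖ :=
  ((M.m i j b).le_opNorm u).trans (mul_le_mul_of_nonneg_right (M.bd h hb) (norm_nonneg u))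

theorem one_apply (u : E i) : M.m i i 1 u = u := by rw [M.one]; rfl

theorem add_apply (h : Adm (K i j) b) (h' : Adm (K i j) c) (u : E j) :
    M.m i j (b + c) u = M.m i j b u + M.m i j c u := by rw [M.add h h']; rfl

end Mod

/-- A rotation pair admissible for the four spaces `L, R, T, Z`. -/
structure Rot4 (K : ι → ι → Set ℝ) (L R T Z : ι) (c s : ℝ → ℝ) : Prop where
  sq : c * c + s * s = 1
  TL : Adm (K T L) c
  LT : Adm (K L T) c
  ZR : Adm (K Z R) c
  RZ : Adm (K R Z) c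
  TR : Adm (K T R) s
  RT : Adm (K R T) s
  ZL : Adm (K Z L) s
  LZ : Adm (K L Z) s

namespace Mod

variable (M : Mod K E k C) {L R T Z : ι} {c s : ℝ → ℝ}

/-- Gluing and anti-gluing. -/
def fwd (L R T Z : ι) (c s : ℝ → ℝ) : E L × E R →L[ℝ] E T × E Z :=
  ((M.m T L c).coprod (M.m T R s)).prod ((-M.m Z L s).coprod (M.m Z R c))

/-- The inverse of `fwd`. -/
def bwd (L R T Z : ι) (c s : ℝ → ℝ) : E T × E Z →L[ℝ] E L × E R :=
  ((M.m L T c).coprod (-M.m L Z s)).prod ((M.m R T s).coprod (M.m R Z c))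

theorem fwd_apply (x : E L × E R) : M.fwd L R T Z c s x =
    (M.m T L c x.1 + M.m T R s x.2, -M.m Z L s x.1 + M.m Z R c x.2) := rfl

theorem bwd_apply (y : E T × E Z) : M.bwd L R T Z c s y =
    (M.m L T c y.1 + -M.m L Z s y.2, M.m R T s y.1 + M.m R Z c y.2) := rfl

theorem sq_apply (h : Rot4 K L R T Z c s) (i : ι) (u : E i) :
    M.m i i (c * c) u + M.m i i (s * s) u = u := by
  rw [← M.add_apply (M.adm (h.TL.sm.mul h.TL.sm) i) (M.adm (h.TR.sm.mul h.TR.sm) i), h.sq,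
    M.one_apply]

theorem bwd_fwd (h : Rot4 K L R T Z c s) (x : E L × E R) :
    M.bwd L R T Z c s (M.fwd L R T Z c s x) = x := by
  rw [bwd_apply, fwd_apply]
  ext
  · simp only [map_add, map_neg, M.mm h.LT h.TL, M.mm h.LT h.TR, M.mm h.LZ h.ZL, M.mm h.LZ h.ZR,
      mul_comm s c]
    conv_rhs => rw [← M.sq_apply h L x.1]
    abel
  · simp only [map_add, map_neg, M.mm h.RT h.TL, M.mm h.RT h.TR, M.mm h.RZ h.ZL, M.mm h.RZ h.ZR,
      mul_comm s c]
    conv_rhs => rw [← M.sq_apply h R x.2]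
    abel

theorem fwd_bwd (h : Rot4 K L R T Z c s) (y : E T × E Z) :
    M.fwd L R T Z c s (M.bwd L R T Z c s y) = y := by
  rw [fwd_apply, bwd_apply]
  ext
  · simp only [map_add, map_neg, M.mm h.TL h.LT, M.mm h.TL h.LZ, M.mm h.TR h.RT, M.mm h.TR h.RZ,
      mul_comm s c]
    conv_rhs => rw [← M.sq_apply h T y.1]
    abel
  · simp only [map_add, map_neg, M.mm h.ZL h.LT, M.mm h.ZL h.LZ, M.mm h.ZR h.RT, M.mm h.ZR h.RZ,
      mul_comm s c]
    conv_rhs => rw [← M.sq_apply h Z y.2]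
    abel

/-- **The rotation isomorphism.** -/
def rot (h : Rot4 K L R T Z c s) : (E L × E R) ≃L[ℝ] (E T × E Z) :=
  ContinuousLinearEquiv.equivOfInverse (M.fwd L R T Z c s) (M.bwd L R T Z c s) (M.bwd_fwd h)
    (M.fwd_bwd h)

theorem rot_apply (h : Rot4 K L R T Z c s) (x : E L × E R) : M.rot h x =
    (M.m T L c x.1 + M.m T R s x.2, -M.m Z L s x.1 + M.m Z R c x.2) := rfl

theorem rot_symm_apply (h : Rot4 K L R T Z c s) (y : E T × E Z) : (M.rot h).symm y =
    (M.m L T c y.1 + -M.m L Z s y.2, M.m R T s y.1 + M.m R Z c y.2) := rfl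

theorem rot_symm_zero (h : Rot4 K L R T Z c s) (y : E T) :
    (M.rot h).symm (y, 0) = (M.m L T c y, M.m R T s y) := by
  simp [rot_symm_apply]

end Mod

section Blocks

variable {A₁ A₂ B₁ B₂ : Type*} [NormedAddCommGroup A₁] [NormedSpace ℝ A₁] [NormedAddCommGroup A₂]
  [NormedSpace ℝ A₂] [NormedAddCommGroup B₁] [NormedSpace ℝ B₁] [NormedAddCommGroup B₂]
  [NormedSpace ℝ B₂]

theorem norm_block_le {a : A₁ →L[ℝ] B₁} {b : A₂ →L[ℝ] B₁} {c : A₁ →L[ℝ] B₂} {d : A₂ →L[ℝ] B₂}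
    {N : ℝ} (ha : ‖a‖ ≤ N) (hb : ‖b‖ ≤ N) (hc : ‖c‖ ≤ N) (hd : ‖d‖ ≤ N) :
    ‖(a.coprod b).prod (c.coprod d)‖ ≤ 2 * N := by
  have hN : 0 ≤ N := (norm_nonneg _).trans ha
  refine ContinuousLinearMap.opNorm_le_bound _ (by positivity) fun x => ?_
  have h1 := norm_fst_le x
  have h2 := norm_snd_le x
  have ea := (a.le_opNorm x.1).trans (mul_le_mul ha h1 (norm_nonneg _) hN)
  have eb := (b.le_opNorm x.2).trans (mul_le_mul hb h2 (norm_nonneg _) hN)
  have ec := (c.le_opNorm x.1).trans (mul_le_mul hc h1 (norm_nonneg _) hN)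
  have ed := (d.le_opNorm x.2).trans (mul_le_mul hd h2 (norm_nonneg _) hN)
  change ‖(a x.1 + b x.2, c x.1 + d x.2)‖ ≤ _
  rw [Prod.norm_def]
  refine max_le ((norm_add_le _ _).trans ?_) ((norm_add_le _ _).trans ?_)
  · linarith
  · linarith

theorem cpt_congr {f : A₁ → B₁} {g : A₁ →L[ℝ] B₁} (h : IsCompactOperator f)
    (e : ∀ x, g x = f x) : IsCompactOperator g := by
  rwa [show (g : A₁ → B₁) = f from funext e]

theorem cpt_block {a : A₁ →L[ℝ] B₁} {b : A₂ →L[ℝ] B₁} {c : A₁ →L[ℝ] B₂} {d : A₂ →L[ℝ] B₂}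
    (ha : IsCompactOperator a) (hb : IsCompactOperator b) (hc : IsCompactOperator c)
    (hd : IsCompactOperator d) : IsCompactOperator ((a.coprod b).prod (c.coprod d)) := by
  have h1 := ((ha.comp_clm (ContinuousLinearMap.fst ℝ A₁ A₂)).add
    (hb.comp_clm (ContinuousLinearMap.snd ℝ A₁ A₂))).clm_comp (ContinuousLinearMap.inl ℝ B₁ B₂)
  have h2 := ((hc.comp_clm (ContinuousLinearMap.fst ℝ A₁ A₂)).add
    (hd.comp_clm (ContinuousLinearMap.snd ℝ A₁ A₂))).clm_comp (ContinuousLinearMap.inr ℝ B₁ B₂)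
  refine cpt_congr (h1.add h2) fun x => ?_
  ext <;> simp

theorem cpt_zero : IsCompactOperator (0 : A₁ →L[ℝ] B₁) := isCompactOperator_zero

theorem fred_prodMap {a : A₁ →L[ℝ] B₁} {d : A₂ →L[ℝ] B₂} (ha : Fred a) (hd : Fred d) :
    Fred (a.prodMap d) := by
  obtain ⟨P, h1, h2⟩ := ha
  obtain ⟨Q, h3, h4⟩ := hd
  refine ⟨P.prodMap Q, ?_, ?_⟩
  · refine cpt_congr (cpt_block h1 cpt_zero cpt_zero h3) fun x => ?_
    ext <;> simp
  · refine cpt_congr (cpt_block h2 cpt_zero cpt_zero h4) fun x => ?_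
    ext <;> simp

theorem fred_of_prodMap {a : A₁ →L[ℝ] B₁} {d : A₂ →L[ℝ] B₂} (h : Fred (a.prodMap d)) :
    Fred a ∧ Fred d := by
  obtain ⟨P, h1, h2⟩ := h
  constructor
  · refine ⟨(ContinuousLinearMap.fst ℝ A₁ A₂).comp (P.comp (ContinuousLinearMap.inl ℝ B₁ B₂)),
      ?_, ?_⟩
    · refine cpt_congr ((h1.comp_clm (ContinuousLinearMap.inl ℝ A₁ A₂)).clm_comp
        (ContinuousLinearMap.fst ℝ A₁ A₂)) fun x => ?_
      simp
    · refine cpt_congr ((h2.comp_clm (ContinuousLinearMap.inl ℝ B₁ B₂)).clm_comp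
        (ContinuousLinearMap.fst ℝ B₁ B₂)) fun x => ?_
      simp
  · refine ⟨(ContinuousLinearMap.snd ℝ A₁ A₂).comp (P.comp (ContinuousLinearMap.inr ℝ B₁ B₂)),
      ?_, ?_⟩
    · refine cpt_congr ((h1.comp_clm (ContinuousLinearMap.inr ℝ A₁ A₂)).clm_comp
        (ContinuousLinearMap.snd ℝ A₁ A₂)) fun x => ?_
      simp
    · refine cpt_congr ((h2.comp_clm (ContinuousLinearMap.inr ℝ B₁ B₂)).clm_comp
        (ContinuousLinearMap.snd ℝ B₁ B₂)) fun x => ?_
      simp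

theorem ind_prodMap [CompleteSpace A₁] [CompleteSpace A₂] [CompleteSpace B₁] [CompleteSpace B₂]
    {a : A₁ →L[ℝ] B₁} {d : A₂ →L[ℝ] B₂} (ha : Fred a) (hd : Fred d) :
    ind (a.prodMap d) = ind a + ind d :=
  idx_prodMap ha.finIdx hd.finIdx

/-- Operators intertwined by isomorphisms up to a compact error. -/
theorem fred_conj [CompleteSpace A₁] [CompleteSpace A₂] [CompleteSpace B₁] [CompleteSpace B₂]
    {a : A₁ →L[ℝ] B₁} {d : A₂ →L[ℝ] B₂} (Φ : A₁ ≃L[ℝ] A₂) (Ψ : B₁ ≃L[ℝ] B₂)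
    (h : IsCompactOperator (d.comp (Φ : A₁ →L[ℝ] A₂) - (Ψ : B₁ →L[ℝ] B₂).comp a)) :
    (Fred a ↔ Fred d) ∧ (Fred a → ind d = ind a) := by
  have e1 : d = (d.comp (Φ : A₁ →L[ℝ] A₂)).comp (Φ.symm : A₂ →L[ℝ] A₁) := by ext; simp
  have e2 : a = (Ψ.symm : B₂ →L[ℝ] B₁).comp ((Ψ : B₁ →L[ℝ] B₂).comp a) := by ext; simp
  have f1 : Fred a → Fred d := fun ha => by
    rw [e1]; exact (fred_equiv Φ.symm).comp ((ha.comp (fred_equiv Ψ)).congr h)
  refine ⟨⟨f1, fun hd => ?_⟩, fun ha => ?_⟩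
  · rw [e2]
    refine Fred.comp (((fred_equiv Φ).comp hd).congr ?_) (fred_equiv Ψ.symm)
    exact cpt_congr h.neg fun x => by simp
  · have h1 := ind_congr (ha.comp (fred_equiv Ψ)) h
    rw [ind_comp (fred_equiv Φ) (f1 ha), ind_comp ha (fred_equiv Ψ), ind_equiv, ind_equiv] at h1
    omega

end Blocks

section Exc

variable (ME : Mod K E k C) (MF : Mod K F k C) {L R T Z : ι} {c s : ℝ → ℝ}

/-- The failure of `A` and `B` to be intertwined by `m i j b`. -/
def err {i j : ι} (A : E i →L[ℝ] F i) (B : E j →L[ℝ] F j) (b : ℝ → ℝ) : E j →L[ℝ] F i :=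
  A.comp (ME.m i j b) - (MF.m i j b).comp B

theorem err_apply {i j : ι} (A : E i →L[ℝ] F i) (B : E j →L[ℝ] F j) (b : ℝ → ℝ) (u : E j) :
    err ME MF A B b u = A (ME.m i j b u) - MF.m i j b (B u) := rfl

variable {DL : E L →L[ℝ] F L} {DR : E R →L[ℝ] F R} {DT : E T →L[ℝ] F T} {DZ : E Z →L[ℝ] F Z}

theorem rot_err (h : Rot4 K L R T Z c s) :
    (DT.prodMap DZ).comp (ME.rot h : E L × E R →L[ℝ] E T × E Z) -
      (MF.rot h : F L × F R →L[ℝ] F T × F Z).comp (DL.prodMap DR) =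
    ((err ME MF DT DL c).coprod (err ME MF DT DR s)).prod
      ((-err ME MF DZ DL s).coprod (err ME MF DZ DR c)) := by
  refine ContinuousLinearMap.ext fun x => ?_
  change (DT.prodMap DZ) (ME.rot h x) - MF.rot h ((DL.prodMap DR) x) = _
  rw [Mod.rot_apply, Mod.rot_apply]
  ext
  · simp [err_apply]; abel
  · simp [err_apply]; abel

/-- **Excision for the index.**  If the four errors are compact, then `DL, DR` are Fredholm iff
`DT, DZ` are, and the indices add up. -/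
theorem excision [∀ i, CompleteSpace (E i)] [∀ i, CompleteSpace (F i)] (h : Rot4 K L R T Z c s)
    (h1 : IsCompactOperator (err ME MF DT DL c)) (h2 : IsCompactOperator (err ME MF DT DR s))
    (h3 : IsCompactOperator (err ME MF DZ DL s)) (h4 : IsCompactOperator (err ME MF DZ DR c)) :
    (Fred DL ∧ Fred DR ↔ Fred DT ∧ Fred DZ) ∧
      (Fred DL → Fred DR → ind DT + ind DZ = ind DL + ind DR) := by
  have hc := fred_conj (a := DL.prodMap DR) (d := DT.prodMap DZ) (ME.rot h) (MF.rot h) (by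
    rw [rot_err]; exact cpt_block h1 h2 h3.neg h4)
  refine ⟨⟨fun a => fred_of_prodMap (hc.1.1 (fred_prodMap a.1 a.2)),
    fun a => fred_of_prodMap (hc.1.2 (fred_prodMap a.1 a.2))⟩, fun a b => ?_⟩
  obtain ⟨t, z⟩ := fred_of_prodMap (hc.1.1 (fred_prodMap a b))
  rw [← ind_prodMap t z, ← ind_prodMap a b]
  exact hc.2 (fred_prodMap a b)

theorem norm_rot_le (h : Rot4 K L R T Z c s) {A : ℝ} (hc : Bd k c A) (hs : Bd k s A) :
    ‖(ME.rot h : E L × E R →L[ℝ] E T × E Z)‖ ≤ 2 * (C * A) :=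
  norm_block_le (ME.bd h.TL hc) (ME.bd h.TR hs) (by rw [norm_neg]; exact ME.bd h.ZL hs)
    (ME.bd h.ZR hc)

theorem norm_rot_symm_le (h : Rot4 K L R T Z c s) {A : ℝ} (hc : Bd k c A) (hs : Bd k s A) :
    ‖((ME.rot h).symm : E T × E Z →L[ℝ] E L × E R)‖ ≤ 2 * (C * A) :=
  norm_block_le (ME.bd h.LT hc) (by rw [norm_neg]; exact ME.bd h.LZ hs) (ME.bd h.RT hs)
    (ME.bd h.RZ hc)

/-- The filled operator is close to `DL ⊕ DR` when the four errors are small. -/
theorem norm_fill'_sub_le (h : Rot4 K L R T Z c s) {A η : ℝ} (hc : Bd k c A) (hs : Bd k s A)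
    (h1 : ‖err ME MF DT DL c‖ ≤ η) (h2 : ‖err ME MF DT DR s‖ ≤ η)
    (h3 : ‖err ME MF DZ DL s‖ ≤ η) (h4 : ‖err ME MF DZ DR c‖ ≤ η) :
    ‖fill' (ME.rot h) (MF.rot h) DT DZ - DL.prodMap DR‖ ≤ 2 * (C * A) * (2 * η) := by
  have e : fill' (ME.rot h) (MF.rot h) DT DZ - DL.prodMap DR =
      ((MF.rot h).symm : F T × F Z →L[ℝ] F L × F R).comp
        ((DT.prodMap DZ).comp (ME.rot h : E L × E R →L[ℝ] E T × E Z) -
          (MF.rot h : F L × F R →L[ℝ] F T × F Z).comp (DL.prodMap DR)) := by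
    refine ContinuousLinearMap.ext fun x => ?_
    simp [fill']
  rw [e, rot_err]
  refine (ContinuousLinearMap.opNorm_comp_le _ _).trans (mul_le_mul (norm_rot_symm_le MF h hc hs)
    (norm_block_le h1 h2 (by rwa [norm_neg]) h4) (norm_nonneg _) ?_)
  exact (norm_nonneg _).trans (norm_rot_symm_le MF h hc hs)

end Exc

end Crest.Agent.X212.Neck67
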