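import Crest.Agent.X212.Sob92.Iso
import Crest.Agent.X212.Prm93.Chg

/-!
# Row 212, NECKABS (helper67): local bounds and transport with rotating frames

`Lb F S k f C`: `f` is smooth at the points of `S` and its derivatives of order `≤ k` are bounded
there.  `Ch`: a partial diffeomorphism that rotates the frames and dominates the measure.
`tpt φ u w = u ∘ pull φ w`, `trf` = cut off and transport on Sobolev spaces.
-/

set_option autoImplicit false
set_option maxHeartbeats 400000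
set_option linter.unusedSectionVars false
noncomputable section
open scoped Manifold ContDiff Topology InnerProductSpace NNReal
open Set Function Filter MeasureTheory

namespace Crest.Agent.X212.Neck67

open An An.Pre Sob92

variable {E : Type} [NormedAddCommGroup E] [NormedSpace ℝ E] [FiniteDimensional ℝ E]
  [MeasurableSpace E] [BorelSpace E]
  {HM : Type} [TopologicalSpace HM] {I : ModelWithCorners ℝ E HM}
  {M : Type} [TopologicalSpace M] [ChartedSpace HM M] [IsManifold I ∞ M]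
  [MeasurableSpace M] {ι : Type} [Fintype ι]
  {E' : Type} [NormedAddCommGroup E'] [NormedSpace ℝ E'] [FiniteDimensional ℝ E']
  [MeasurableSpace E'] [BorelSpace E']
  {HM' : Type} [TopologicalSpace HM'] {I' : ModelWithCorners ℝ E' HM'}
  {M' : Type} [TopologicalSpace M'] [ChartedSpace HM' M'] [IsManifold I' ∞ M']
  [MeasurableSpace M'] {ι' : Type} [Fintype ι']
  {N N' N'' : Type} [NormedAddCommGroup N] [NormedSpace ℝ N] [NormedAddCommGroup N']
  [NormedSpace ℝ N'] [NormedAddCommGroup N''] [NormedSpace ℝ N'']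
  {V V' W W' : Type} [NormedAddCommGroup V] [InnerProductSpace ℝ V] [NormedAddCommGroup V']
  [InnerProductSpace ℝ V'] [NormedAddCommGroup W] [InnerProductSpace ℝ W] [NormedAddCommGroup W']
  [InnerProductSpace ℝ W']
  {F : Pre I M ι} {F' : Pre I' M' ι'} {S : Set M} {k n : ℕ} {A C : ℝ}

/-- smooth at the points of `S`, derivatives of order `≤ k` bounded on `S` -/
def Lb (F : Pre I M ι) (S : Set M) : ℕ → (M → N) → ℝ → Prop
  | 0, f, C => ∀ x ∈ S, ContMDiffAt I 𝓘(ℝ, N) ∞ f x ∧ ‖f x‖ ≤ C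
  | k + 1, f, C => (∀ x ∈ S, ContMDiffAt I 𝓘(ℝ, N) ∞ f x ∧ ‖f x‖ ≤ C) ∧ ∀ a, Lb F S k (F.D a f) C

namespace Lb
variable {f f' : M → N} {g : M → N'}

theorem zero (h : Lb F S k f C) : Lb F S 0 f C := by
  cases k
  · exact h
  · exact h.1

theorem sm (h : Lb F S k f C) {x : M} (hx : x ∈ S) : ContMDiffAt I 𝓘(ℝ, N) ∞ f x := (h.zero x hx).1

theorem md (h : Lb F S k f C) {x : M} (hx : x ∈ S) : MDifferentiableAt I 𝓘(ℝ, N) f x :=
  (h.sm hx).mdifferentiableAt (by simp)

theorem le (h : Lb F S k f C) {x : M} (hx : x ∈ S) : ‖f x‖ ≤ C := (h.zero x hx).2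

theorem D (h : Lb F S (k + 1) f C) (a : ι) : Lb F S k (F.D a f) C := h.2 a

theorem pred : ∀ {k : ℕ} {f : M → N}, Lb F S (k + 1) f C → Lb F S k f C
  | 0, _, h => h.1
  | _ + 1, _, h => ⟨h.1, fun a => pred (h.2 a)⟩

theorem of_le {j : ℕ} (h : Lb F S k f C) (hj : j ≤ k) : Lb F S j f C := by
  induction hj with
  | refl => exact h
  | step _ ih => exact ih h.pred

theorem mono' {S' : Set M} (hS : S' ⊆ S) (hC : C ≤ A) :
    ∀ {k : ℕ} {f : M → N}, Lb F S k f C → Lb F S' k f A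
  | 0, _, h => fun x hx => ⟨(h x (hS hx)).1, (h x (hS hx)).2.trans hC⟩
  | _ + 1, _, h => ⟨fun x hx => ⟨(h.1 x (hS hx)).1, (h.1 x (hS hx)).2.trans hC⟩,
      fun a => mono' hS hC (h.2 a)⟩

theorem mono (h : Lb F S k f C) (hC : C ≤ A) : Lb F S k f A := mono' Subset.rfl hC h

theorem sub {S' : Set M} (h : Lb F S k f C) (hS : S' ⊆ S) : Lb F S' k f C := mono' hS le_rfl h

theorem abs (h : Lb F S k f C) : Lb F S k f |C| := h.mono (le_abs_self C)

theorem of_CB : ∀ {k : ℕ} {f : M → N}, Sm I f → F.CB k f C → Lb F S k f C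
  | 0, _, hf, h => fun x _ => ⟨hf x, CB_bound h x⟩
  | _ + 1, _, hf, h => ⟨fun x _ => ⟨hf x, CB_bound h x⟩, fun a => of_CB (F.sm_D hf a) (CB_D h a)⟩

theorem cb : ∀ {k : ℕ} {f : M → N}, Lb F univ k f C → F.CB k f C
  | 0, _, h => CB_zero.2 fun x => h.le (mem_univ x)
  | _ + 1, _, h => CB_succ.2 ⟨fun x => h.le (mem_univ x), fun a => cb (h.2 a)⟩

/-- pointwise bounds for the iterated derivatives give `Lb` -/
theorem of_Dw : ∀ {k : ℕ} {f : M → N}, (∀ x ∈ S, ContMDiffAt I 𝓘(ℝ, N) ∞ f x) →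
    (∀ w : List ι, w.length ≤ k → ∀ x ∈ S, ‖F.Dw w f x‖ ≤ C) → Lb F S k f C
  | 0, _, hf, h => fun x hx => ⟨hf x hx, h [] le_rfl x hx⟩
  | _ + 1, _, hf, h => ⟨fun x hx => ⟨hf x hx, h [] (by simp) x hx⟩, fun a =>
      of_Dw (fun x hx => dv_smoothAt (F.sm a x) (hf x hx)) fun w hw => h (a :: w) (by simpa using hw)⟩

theorem Dw : ∀ {k : ℕ} {f : M → N}, Lb F S k f C → ∀ w : List ι, w.length ≤ k → ∀ x ∈ S,
    ‖F.Dw w f x‖ ≤ C
  | _, _, h, [], _, _, hx => h.le hx
  | 0, _, _, _ :: _, hw, _, _ => absurd hw (by simp)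
  | _ + 1, _, h, a :: w, hw, x, hx => Dw (h.2 a) w (by simpa using hw) x hx

theorem congr' : ∀ {k : ℕ} {f f' : M → N}, Lb F S k f C → (∀ x ∈ S, f' =ᶠ[𝓝 x] f) →
    Lb F S k f' C := by
  have h0 : ∀ {f f' : M → N}, Lb F S 0 f C → (∀ x ∈ S, f' =ᶠ[𝓝 x] f) → Lb F S 0 f' C :=
    fun h e x hx => ⟨(h x hx).1.congr_of_eventuallyEq (e x hx),
      (e x hx).self_of_nhds ▸ (h x hx).2⟩
  intro k
  induction k with
  | zero => exact h0
  | succ k ih => exact fun h e => ⟨h0 h.1 e, fun a => ih (h.2 a) fun x hx =>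
      (e x hx).eventuallyEq_nhds.mono fun y hy => dv_congr hy⟩

theorem congr (hS : IsOpen S) (h : Lb F S k f C) (e : ∀ x ∈ S, f' x = f x) : Lb F S k f' C :=
  h.congr' fun _ hx => Eventually.mono (hS.mem_nhds hx) e

theorem const (hS : IsOpen S) (c : N) : Lb F S k (fun _ => c) ‖c‖ :=
  have _ := hS; of_CB contMDiff_const (CB_const k c)

theorem add (hS : IsOpen S) : ∀ {k : ℕ} {f f' : M → N}, Lb F S k f A → Lb F S k f' C →
    Lb F S k (fun x => f x + f' x) (A + C) := by
  have h0 : ∀ {f f' : M → N}, Lb F S 0 f A → Lb F S 0 f' C →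
      Lb F S 0 (fun x => f x + f' x) (A + C) := fun h h' x hx =>
    ⟨(h x hx).1.add (h' x hx).1, (norm_add_le _ _).trans (add_le_add (h x hx).2 (h' x hx).2)⟩
  intro k
  induction k with
  | zero => exact h0
  | succ k ih => exact fun h h' => ⟨h0 h.1 h'.1, fun a =>
      (ih (h.2 a) (h'.2 a)).congr hS fun x hx => dv_add (h.md hx) (h'.md hx)⟩

theorem clm (hS : IsOpen S) (L : N →L[ℝ] N') : ∀ {k : ℕ} {f : M → N}, Lb F S k f C →
    Lb F S k (fun x => L (f x)) (‖L‖ * C) := by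
  have h0 : ∀ {f : M → N}, Lb F S 0 f C → Lb F S 0 (fun x => L (f x)) (‖L‖ * C) := fun h x hx =>
    ⟨L.contMDiff.contMDiffAt.comp x (h x hx).1,
      (L.le_opNorm _).trans (mul_le_mul_of_nonneg_left (h x hx).2 (norm_nonneg _))⟩
  intro k
  induction k with
  | zero => exact h0
  | succ k ih => exact fun h => ⟨h0 h.1, fun a =>
      (ih (h.2 a)).congr hS fun x hx => dv_clm L (h.md hx)⟩

theorem neg (hS : IsOpen S) (h : Lb F S k f C) : Lb F S k (fun x => -f x) |C| :=
  (h.abs.clm hS (-ContinuousLinearMap.id ℝ N)).mono (mul_le_of_le_one_left (abs_nonneg C)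
    (by rw [norm_neg]; exact ContinuousLinearMap.norm_id_le))

theorem sub' (hS : IsOpen S) (h : Lb F S k f A) (h' : Lb F S k f' C) :
    Lb F S k (fun x => f x - f' x) (A + |C|) := by
  simpa only [sub_eq_add_neg] using h.add hS (h'.neg hS)

theorem sum (hS : IsOpen S) {κ : Type*} (s : Finset κ) {f : κ → M → N}
    (h : ∀ i ∈ s, Lb F S k (f i) C) : Lb F S k (fun x => ∑ i ∈ s, f i x) (s.card * C) := by
  classical
  induction s using Finset.induction_on with
  | empty => simpa using const (F := F) (k := k) hS (0 : N)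
  | insert a s ha ih =>
    simp only [Finset.sum_insert ha, Finset.card_insert_of_notMem ha]
    refine ((h a (by simp)).add hS (ih fun i hi => h i (by simp [hi]))).mono (le_of_eq ?_)
    push_cast; ring

theorem bil (hS : IsOpen S) (B : N →L[ℝ] N' →L[ℝ] N'') (hA : 0 ≤ A) (hC : 0 ≤ C) :
    ∀ {k : ℕ} {f : M → N} {g : M → N'}, Lb F S k f A → Lb F S k g C →
      Lb F S k (fun x => B (f x) (g x)) (2 ^ k * ‖B‖ * A * C) := by
  have h0 : ∀ {f : M → N} {g : M → N'}, Lb F S 0 f A → Lb F S 0 g C →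
      Lb F S 0 (fun x => B (f x) (g x)) (‖B‖ * A * C) := fun h h' x hx =>
    ⟨(B.contMDiff.contMDiffAt.comp x (h x hx).1).clm_apply (h' x hx).1,
      (B.le_opNorm₂ _ _).trans (by have := (h x hx).2; have := (h' x hx).2; gcongr)⟩
  intro k
  induction k with
  | zero => exact fun h h' => by simpa using h0 h h'
  | succ k ih =>
    intro f g h h'
    refine ⟨(h0 h.1 h'.1).mono ?_, fun a => (((ih (h.2 a) h'.pred).add hS
      (ih h.pred (h'.2 a))).congr hS fun x hx => dv_bil B (h.md hx) (h'.md hx)).mono (le_of_eq ?_)⟩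
    · have : (1 : ℝ) ≤ 2 ^ (k + 1) := one_le_pow₀ (by norm_num)
      calc _ = 1 * ‖B‖ * A * C := by ring
        _ ≤ _ := by gcongr
    · ring

theorem bil' (hS : IsOpen S) {B : N →L[ℝ] N' →L[ℝ] N''} (hB : ‖B‖ ≤ 1) (h : Lb F S k f A)
    (h' : Lb F S k g C) : Lb F S k (fun x => B (f x) (g x)) (2 ^ k * |A| * |C|) :=
  (bil hS B (abs_nonneg A) (abs_nonneg C) h.abs h'.abs).mono (by
    calc _ ≤ 2 ^ k * 1 * |A| * |C| := by gcongr
      _ = _ := by ring)

theorem smul (hS : IsOpen S) {r : M → ℝ} (h : Lb F S k r A) (h' : Lb F S k f C) :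
    Lb F S k (fun x => r x • f x) (2 ^ k * |A| * |C|) :=
  bil' hS (B := ContinuousLinearMap.lsmul ℝ ℝ) ContinuousLinearMap.opNorm_lsmul_le h h'

theorem app (hS : IsOpen S) {L : M → N →L[ℝ] N'} (h : Lb F S k L A) (h' : Lb F S k f C) :
    Lb F S k (fun x => L x (f x)) (2 ^ k * |A| * |C|) :=
  bil' hS (B := ContinuousLinearMap.id ℝ (N →L[ℝ] N')) ContinuousLinearMap.norm_id_le h h'

theorem comp (hS : IsOpen S) {L : M → N' →L[ℝ] N''} {L' : M → N →L[ℝ] N'} (h : Lb F S k L A)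
    (h' : Lb F S k L' C) : Lb F S k (fun x => L x ∘L L' x) (2 ^ k * |A| * |C|) :=
  bil' hS (B := ContinuousLinearMap.compL ℝ N N' N'') (ContinuousLinearMap.norm_compL_le ..) h h'

end Lb

/-- a product with a factor supported in `S` -/
theorem sm_bil_on (B : N →L[ℝ] N' →L[ℝ] N'') {f : M → N} {u : M → N'}
    (hf : ∀ x ∈ S, ContMDiffAt I 𝓘(ℝ, N) ∞ f x) (hu : Sm I u) (hs : tsupport u ⊆ S) :
    Sm I fun x => B (f x) (u x) := fun x => by
  by_cases hx : x ∈ tsupport u
  · exact (B.contMDiff.contMDiffAt.comp x (hf x (hs hx))).clm_apply (hu x)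
  · refine (contMDiffAt_const (c := 0)).congr_of_eventuallyEq ?_
    filter_upwards [notMem_tsupport_iff_eventuallyEq.1 hx] with y hy
    simp [hy]

omit [ChartedSpace HM M] [IsManifold I ∞ M] in
theorem tsupport_bil (B : N →L[ℝ] N' →L[ℝ] N'') (f : M → N) (u : M → N') :
    tsupport (fun x => B (f x) (u x)) ⊆ tsupport u :=
  closure_mono fun x hx h => hx (by simp [h])

theorem D_bil_on (B : N →L[ℝ] N' →L[ℝ] N'') {f : M → N} {u : M → N'}
    (hf : ∀ x ∈ S, ContMDiffAt I 𝓘(ℝ, N) ∞ f x) (hu : Sm I u) (hs : tsupport u ⊆ S) (a : ι) :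
    F.D a (fun x => B (f x) (u x)) =
      (fun x => B (F.D a f x) (u x)) + fun x => B (f x) (F.D a u x) := funext fun x => by
  by_cases hx : x ∈ tsupport u
  · exact dv_bil B ((hf x (hs hx)).mdifferentiableAt (by simp)) (hu.mdifferentiableAt (by simp))
  · have h1 : F.D a u x = 0 := dv_eq_zero_of_notMem hx
    have h2 : F.D a (fun x => B (f x) (u x)) x = 0 :=
      dv_eq_zero_of_notMem fun h => hx (tsupport_bil B f u h)
    simp [h1, h2, image_eq_zero_of_notMem_tsupport hx]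

/-- the Leibniz constant -/
def cL (n : ℕ) : ℕ → ℝ
  | 0 => 1
  | k + 1 => 1 + n * (2 * cL n k)

theorem one_le_cL (n : ℕ) : ∀ k, 1 ≤ cL n k
  | 0 => le_rfl
  | k + 1 => by have := one_le_cL n k; rw [cL]; exact le_add_of_nonneg_right (by positivity)

variable [T2Space M] [BorelSpace M] [T2Space M'] [BorelSpace M']

theorem nrm_zero_le_of {u : M → V} {v : M → W} (hu : Continuous u) (hc : HasCompactSupport u)
    (hC : 0 ≤ C) (h : ∀ x, ‖v x‖ ≤ C * ‖u x‖) : F.nrm 0 v ≤ C * F.nrm 0 u := by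
  refine nrm_le_of_sq (mul_nonneg hC (nrm_nonneg 0 u)) ?_
  rw [mul_pow, nrm_sq]
  simp only [n2]
  rw [← integral_const_mul]
  refine integral_mono_of_nonneg (Eventually.of_forall fun _ => by positivity)
    ((int_sq (hu.memLp_of_hasCompactSupport hc)).const_mul _) (Eventually.of_forall fun x => ?_)
  simp only [← mul_pow]
  exact pow_le_pow_left₀ (norm_nonneg _) (h x) 2

/-- multiplication by a coefficient that is bounded near the support -/
theorem nrm_mul_on (hn : Fintype.card ι ≤ n) (B : N →L[ℝ] V →L[ℝ] W) (hC : 0 ≤ C) (k : ℕ) :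
    ∀ {f : M → N} {u : M → V}, Lb F S k f C → Sm I u → HasCompactSupport u → tsupport u ⊆ S →
      F.nrm k (fun x => B (f x) (u x)) ≤ cL n k * (‖B‖ * C) * F.nrm k u := by
  have h0 : ∀ {f : M → N} {u : M → V}, Lb F S 0 f C → Sm I u → HasCompactSupport u →
      tsupport u ⊆ S → F.nrm 0 (fun x => B (f x) (u x)) ≤ ‖B‖ * C * F.nrm 0 u :=
    fun {f u} hf hu hc hs => nrm_zero_le_of hu.continuous hc (by positivity) fun x => by
      by_cases hx : x ∈ tsupport u
      · exact (B.le_opNorm₂ _ _).trans (by have := hf.le (hs hx); gcongr)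
      · simp [image_eq_zero_of_notMem_tsupport hx]
  induction k with
  | zero => exact fun hf hu hc hs => by simpa [cL] using h0 hf hu hc hs
  | succ k ih =>
    intro f u hf hu hc hs
    have h1 := one_le_cL n k
    have h2 := nrm_nonneg (F := F) (k + 1) u
    have hs' := fun a => (F.tsupport_D u a).trans hs
    have h3 : ∀ a, F.nrm k (F.D a fun x => B (f x) (u x)) ≤
        2 * cL n k * (‖B‖ * C) * F.nrm (k + 1) u := fun a => by
      rw [D_bil_on B (fun x hx => hf.sm hx) hu hs]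
      refine (nrm_add_le k (sm_bil_on B (fun x hx => (hf.D a).sm hx) hu hs) (hcs_bil_right B _ hc)
        (sm_bil_on B (fun x hx => hf.sm hx) (F.sm_D hu a) (hs' a))
        (hcs_bil_right B _ (F.hcs_D hc a))).trans ?_
      have e1 := (ih (hf.D a) hu hc hs).trans
        (mul_le_mul_of_nonneg_left (nrm_mono k.le_succ u) (by positivity))
      have e2 := (ih hf.pred (F.sm_D hu a) (F.hcs_D hc a) (hs' a)).trans
        (mul_le_mul_of_nonneg_left (nrm_D_le k u a) (by positivity))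
      linarith
    have h4 := Finset.sum_le_sum fun a (_ : a ∈ Finset.univ) => h3 a
    rw [Finset.sum_const, Finset.card_univ, nsmul_eq_mul] at h4
    have h5 := (h0 hf.zero hu hc hs).trans
      (mul_le_mul_of_nonneg_left (nrm_mono (Nat.zero_le (k + 1)) u) (by positivity))
    have h6 : (Fintype.card ι : ℝ) ≤ n := by exact_mod_cast hn
    refine (Prm93.nrm_succ_le k _).trans ((add_le_add h5 (h4.trans
      (mul_le_mul_of_nonneg_right h6 (by positivity)))).trans (le_of_eq ?_))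
    rw [cL]; ring

theorem nrm_mul_on' (hn : Fintype.card ι ≤ n) {B : N →L[ℝ] V →L[ℝ] W} (hB : ‖B‖ ≤ 1) {f : M → N}
    {u : M → V} (hf : Lb F S k f C) (hu : Sm I u) (hc : HasCompactSupport u) (hs : tsupport u ⊆ S) :
    F.nrm k (fun x => B (f x) (u x)) ≤ cL n k * |C| * F.nrm k u := by
  refine (nrm_mul_on hn B (abs_nonneg C) k hf.abs hu hc hs).trans ?_
  have := one_le_cL n k
  have := nrm_nonneg (F := F) k u
  calc _ ≤ cL n k * (1 * |C|) * F.nrm k u := by gcongr
    _ = _ := by ring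

theorem nrm_app_on (hn : Fintype.card ι ≤ n) {f : M → V →L[ℝ] W} {u : M → V} (hf : Lb F S k f C)
    (hu : Sm I u) (hc : HasCompactSupport u) (hs : tsupport u ⊆ S) :
    F.nrm k (fun x => f x (u x)) ≤ cL n k * |C| * F.nrm k u :=
  nrm_mul_on' hn (B := ContinuousLinearMap.id ℝ (V →L[ℝ] W)) ContinuousLinearMap.norm_id_le
    hf hu hc hs

theorem nrm_smul_on (hn : Fintype.card ι ≤ n) {f : M → ℝ} {u : M → V} (hf : Lb F S k f C)
    (hu : Sm I u) (hc : HasCompactSupport u) (hs : tsupport u ⊆ S) :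
    F.nrm k (fun x => f x • u x) ≤ cL n k * |C| * F.nrm k u :=
  nrm_mul_on' hn (B := ContinuousLinearMap.lsmul ℝ ℝ) ContinuousLinearMap.opNorm_lsmul_le
    hf hu hc hs

/-! ### charts -/

variable {φ : OpenPartialHomeomorph M M'} {U : ι → ι' → M → ℝ} {c : ℝ≥0}

/-- over `S` the map `φ` rotates the frames by `U` and the measure is dominated -/
structure Ch (F : Pre I M ι) (F' : Pre I' M' ι') (φ : OpenPartialHomeomorph M M')
    (U : ι → ι' → M → ℝ) (S : Set M) (k : ℕ) (C : ℝ) (c : ℝ≥0) : Prop where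
  op : IsOpen S
  sub : S ⊆ φ.source
  sm : ∀ x ∈ S, ContMDiffAt I I' ∞ φ x
  e : ∀ a, ∀ x ∈ S, mfderiv I I' φ x (F.e a x) = ∑ b, U a b x • F'.e b (φ x)
  U : ∀ a b, Lb F S k (U a b) C
  μ : (F.μ.restrict S).map φ ≤ c • F'.μ

/-- the constant in `Ch.nrm_pull` -/
def cP (n : ℕ) (c C : ℝ) : ℕ → ℝ
  | 0 => √c
  | k + 1 => √c + n * (n * (cL n k * |C| * cP n c C k))

theorem cP_nonneg (n : ℕ) (c C : ℝ) : ∀ k, 0 ≤ cP n c C k
  | 0 => Real.sqrt_nonneg c
  | k + 1 => by
    have := cP_nonneg n c C k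
    have := one_le_cL n k
    rw [cP]; positivity

/-- the constant in `Ch.lb_comp` -/
def cQ (n : ℕ) (C : ℝ) : ℕ → ℝ
  | 0 => 1
  | k + 1 => 1 + n * (2 ^ k * |C| * cQ n C k)

theorem one_le_cQ (n : ℕ) (C : ℝ) : ∀ k, 1 ≤ cQ n C k
  | 0 => le_rfl
  | k + 1 => by have := one_le_cQ n C k; rw [cQ]; exact le_add_of_nonneg_right (by positivity)

omit [ChartedSpace HM M] [IsManifold I ∞ M] [ChartedSpace HM' M'] [IsManifold I' ∞ M'] in
theorem tsupport_pull_sub (hS : S ⊆ φ.source) {u : M' → N} (hc : HasCompactSupport u)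
    (hs : tsupport u ⊆ φ '' S) : tsupport (pull φ u) ⊆ S ∩ φ ⁻¹' tsupport u := fun x hx => by
  have ht : tsupport u ⊆ φ.target := hs.trans (by rintro _ ⟨y, hy, rfl⟩; exact φ.map_source (hS hy))
  have h1 := (Sob92.Adm.of_isCompact hc ht).tsupport_pull hx
  obtain ⟨y, hy, e⟩ := hs h1.2
  exact ⟨φ.injOn (hS hy) h1.1 e ▸ hy, h1.2⟩

namespace Ch
variable (h : Ch F F' φ U S k C c)
include h

theorem of_le {j : ℕ} (hj : j ≤ k) : Ch F F' φ U S j C c :=
  ⟨h.op, h.sub, h.sm, h.e, fun a b => (h.U a b).of_le hj, h.μ⟩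

theorem restr {S' : Set M} (hS : IsOpen S') (hs : S' ⊆ S) : Ch F F' φ U S' k C c :=
  ⟨hS, hs.trans h.sub, fun x hx => h.sm x (hs hx), fun a x hx => h.e a x (hs hx),
    fun a b => (h.U a b).sub hs, le_trans (Measure.map_mono_of_aemeasurable
      (Measure.restrict_mono hs le_rfl)
      ((φ.continuousOn.mono h.sub).aemeasurable h.op.measurableSet)) h.μ⟩

theorem tgt : φ '' S ⊆ φ.target := by rintro _ ⟨y, hy, rfl⟩; exact φ.map_source (h.sub hy)

theorem isOpen_image : IsOpen (φ '' S) := φ.isOpen_image_of_subset_source h.op h.sub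

theorem D_comp {u : M' → N} {x : M} (hx : x ∈ S) (hu : MDifferentiableAt I' 𝓘(ℝ, N) u (φ x))
    (a : ι) : F.D a (fun y => u (φ y)) x = ∑ b, U a b x • F'.D b u (φ x) := by
  have h1 := mfderiv_comp_apply x hu ((h.sm x hx).mdifferentiableAt (by simp)) (F.e a x)
  rw [h.e a x hx, map_sum] at h1
  simp only [map_smul] at h1
  exact h1

/-- bounds are transported -/
theorem lb_comp (hn : Fintype.card ι' ≤ n) : ∀ {j : ℕ} {u : M' → N} {A : ℝ}, j ≤ k + 1 →
    Lb F' (φ '' S) j u A → Lb F S j (fun y => u (φ y)) (cQ n C j * |A|) := by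
  have h0 : ∀ {u : M' → N} {A : ℝ}, Lb F' (φ '' S) 0 u A → Lb F S 0 (fun y => u (φ y)) |A| :=
    fun hu x hx => ⟨(hu.sm ⟨x, hx, rfl⟩).comp x (h.sm x hx), hu.abs.le ⟨x, hx, rfl⟩⟩
  intro j
  induction j with
  | zero => exact fun _ hu => by simpa [cQ] using h0 hu
  | succ j ih =>
    intro u A hj hu
    have h1 := one_le_cQ n C j
    refine ⟨(h0 hu.1).mono (le_mul_of_one_le_left (abs_nonneg A) (one_le_cQ _ _ _)), fun a => ?_⟩
    have h2 := Lb.sum h.op Finset.univ fun b _ =>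
      ((h.U a b).of_le (by omega : j ≤ k)).smul h.op (ih (by omega) (hu.2 b))
    refine (h2.congr h.op fun x hx => h.D_comp hx (hu.md ⟨x, hx, rfl⟩) a).mono ?_
    have h6 : (Fintype.card ι' : ℝ) ≤ n := by exact_mod_cast hn
    rw [Finset.card_univ, abs_of_nonneg (by positivity : 0 ≤ cQ n C j * |A|), cQ]
    calc _ ≤ n * (2 ^ j * |C| * (cQ n C j * |A|)) := by gcongr
      _ ≤ _ := by nlinarith [abs_nonneg A]

variable {u : M' → N}

theorem sm_pull (hu : Sm I' u) (hc : HasCompactSupport u) (hs : tsupport u ⊆ φ '' S) :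
    Sm I (pull φ u) := fun x => by
  by_cases hx : x ∈ S
  · exact ((hu _).comp x (h.sm x hx)).congr_of_eventuallyEq (pull_eventuallyEq (h.sub hx) u)
  · exact contMDiffAt_const.congr_of_eventuallyEq
      (notMem_tsupport_iff_eventuallyEq.1 fun h' => hx (tsupport_pull_sub h.sub hc hs h').1)

theorem hcs_pull (hc : HasCompactSupport u) (hs : tsupport u ⊆ φ '' S) :
    HasCompactSupport (pull φ u) := Sob92.hcs_pull hc (hs.trans h.tgt)

theorem ts_pull (hc : HasCompactSupport u) (hs : tsupport u ⊆ φ '' S) : tsupport (pull φ u) ⊆ S :=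
  (tsupport_pull_sub h.sub hc hs).trans inter_subset_left

theorem D_pull (hu : Sm I' u) (hc : HasCompactSupport u) (hs : tsupport u ⊆ φ '' S) (a : ι) :
    F.D a (pull φ u) = fun x => ∑ b, U a b x • pull φ (F'.D b u) x := funext fun x => by
  by_cases hx : x ∈ S
  · simp only [pull_of_mem (h.sub hx)]
    exact (dv_congr (pull_eventuallyEq (h.sub hx) u)).trans
      (h.D_comp hx (hu.mdifferentiableAt (by simp)) a)
  · have h1 : ∀ b, pull φ (F'.D b u) x = 0 := fun b => image_eq_zero_of_notMem_tsupport fun h' =>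
      hx (h.ts_pull (F'.hcs_D hc b) ((F'.tsupport_D u b).trans hs) h')
    simp only [h1, smul_zero, Finset.sum_const_zero]
    exact dv_eq_zero_of_notMem fun h' => hx (h.ts_pull hc hs h')

theorem nrm_pull_zero {u : M' → V} (hu : Continuous u) (hc : HasCompactSupport u)
    (hs : tsupport u ⊆ φ '' S) : F.nrm 0 (pull φ u) ≤ √c * F'.nrm 0 u := by
  rw [nrm_eq, nrm_eq, ← Real.sqrt_mul c.coe_nonneg]
  refine Real.sqrt_le_sqrt ?_
  simp only [n2]
  have h1 : ∫ x, ‖pull φ u x‖ ^ 2 ∂F.μ = ∫ x in S, ‖u (φ x)‖ ^ 2 ∂F.μ := by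
    rw [← setIntegral_eq_integral_of_forall_compl_eq_zero (s := S) fun x hx => by
      simp [image_eq_zero_of_notMem_tsupport fun h' => hx (h.ts_pull hc hs h')]]
    exact setIntegral_congr_fun h.op.measurableSet fun x hx => by simp only [pull_of_mem (h.sub hx)]
  rw [h1, ← integral_map ((φ.continuousOn.mono h.sub).aemeasurable h.op.measurableSet)
    (f := fun y => ‖u y‖ ^ 2) (hu.norm.pow 2).aestronglyMeasurable]
  have := integral_mono_measure (f := fun y => ‖u y‖ ^ 2) h.μ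
    (Eventually.of_forall fun _ => by positivity)
    ((int_sq (hu.memLp_of_hasCompactSupport hc)).smul_measure_nnreal)
  rwa [integral_smul_nnreal_measure] at this

theorem nrm_pull (hn : Fintype.card ι ≤ n) (hn' : Fintype.card ι' ≤ n) : ∀ {j : ℕ} {u : M' → V},
    j ≤ k + 1 → Sm I' u → HasCompactSupport u → tsupport u ⊆ φ '' S →
      F.nrm j (pull φ u) ≤ cP n c C j * F'.nrm j u := by
  intro j
  induction j with
  | zero => exact fun _ hu hc hs => h.nrm_pull_zero hu.continuous hc hs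
  | succ j ih =>
    intro u hj hu hc hs
    have h0 := cP_nonneg n c C j
    have h1 := one_le_cL n j
    have h2 := nrm_nonneg (F := F') (j + 1) u
    have hs' := fun b => (F'.tsupport_D u b).trans hs
    have s1 := fun b => h.sm_pull (F'.sm_D hu b) (F'.hcs_D hc b) (hs' b)
    have s2 := fun b => h.hcs_pull (F'.hcs_D hc b) (hs' b)
    have s3 := fun b => h.ts_pull (F'.hcs_D hc b) (hs' b)
    have h6 : (Fintype.card ι : ℝ) ≤ n := by exact_mod_cast hn
    have h7 : (Fintype.card ι' : ℝ) ≤ n := by exact_mod_cast hn'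
    have h3 : ∀ a, F.nrm j (F.D a (pull φ u)) ≤
        n * (cL n j * |C| * cP n c C j) * F'.nrm (j + 1) u := fun a => by
      rw [h.D_pull hu hc hs]
      refine (nrm_sum_le Finset.univ j (u := fun b x => U a b x • pull φ (F'.D b u) x)
        (fun b _ => sm_bil_on (ContinuousLinearMap.lsmul ℝ ℝ) (fun x hx => (h.U a b).sm hx)
          (s1 b) (s3 b))
        fun b _ => hcs_bil_right (ContinuousLinearMap.lsmul ℝ ℝ) _ (s2 b)).trans ?_
      refine (Finset.sum_le_sum fun b _ => (nrm_smul_on hn ((h.U a b).of_le (by omega)) (s1 b)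
        (s2 b) (s3 b)).trans (mul_le_mul_of_nonneg_left ((ih (by omega) (F'.sm_D hu b)
          (F'.hcs_D hc b) (hs' b)).trans (mul_le_mul_of_nonneg_left (nrm_D_le j u b) h0))
          (by positivity))).trans ?_
      rw [Finset.sum_const, Finset.card_univ, nsmul_eq_mul]
      refine (mul_le_mul_of_nonneg_right h7 (by positivity)).trans (le_of_eq ?_)
      ring
    have h4 := Finset.sum_le_sum fun a (_ : a ∈ Finset.univ) => h3 a
    rw [Finset.sum_const, Finset.card_univ, nsmul_eq_mul] at h4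
    have h5 := (h.nrm_pull_zero hu.continuous hc hs).trans
      (mul_le_mul_of_nonneg_left (nrm_mono (Nat.zero_le (j + 1)) u) (Real.sqrt_nonneg _))
    refine (Prm93.nrm_succ_le j _).trans ((add_le_add h5 (h4.trans
      (mul_le_mul_of_nonneg_right h6 (by positivity)))).trans (le_of_eq ?_))
    rw [cP]; ring

end Ch

end Crest.Agent.X212.Neck67
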