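import Crest.Agent.X212.Neck67.Prod
import Crest.Agent.X212.Sob92.Ops
import Crest.Agent.X212.Met55.Fr

/-!
# Row 212, NECKABS (helper67): `Mod` for the Sobolev spaces of `An/Defs`

`Pc`: a manifold with frame, measure and neck coordinate; `Bn`: a bundle on it; `Trs`: transports
of sections between the members of a family; `Trs.mod : Mod K (fun i => (B i).H k) k C`.
`Atl`, `BAtl`: transports given by partial diffeomorphisms (frames may rotate) and bundle maps.
-/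

set_option autoImplicit false
set_option maxHeartbeats 400000
set_option linter.unusedSectionVars false
noncomputable section
open scoped Manifold ContDiff Topology
open Set Function Filter MeasureTheory

namespace Crest.Agent.X212.Neck67

open An Sob92

/-- A manifold with a frame, a measure and a neck coordinate. -/
structure Pc where
  E : Type
  [nE : NormedAddCommGroup E]
  [sE : NormedSpace ℝ E]
  [fE : FiniteDimensional ℝ E]
  [mE : MeasurableSpace E]
  [bE : BorelSpace E]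
  HM : Type
  [tH : TopologicalSpace HM]
  I : ModelWithCorners ℝ E HM
  M : Type
  [tM : TopologicalSpace M]
  [cM : ChartedSpace HM M]
  [iM : IsManifold I ∞ M]
  [mM : MeasurableSpace M]
  [t2 : T2Space M]
  [bM : BorelSpace M]
  [s2 : SecondCountableTopology M]
  ι : Type
  [fι : Fintype ι]
  F : Pre I M ι
  t : M → ℝ

attribute [instance] Pc.nE Pc.sE Pc.fE Pc.mE Pc.bE Pc.tH Pc.tM Pc.cM Pc.iM Pc.mM Pc.t2 Pc.bM Pc.s2
  Pc.fι

/-- A bundle. -/
structure Bn (P : Pc) where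
  V : Type
  [nV : NormedAddCommGroup V]
  [iV : InnerProductSpace ℝ V]
  p : P.M → V →L[ℝ] V

attribute [instance] Bn.nV Bn.iV

/-- Its Sobolev spaces. -/
abbrev Bn.H {P : Pc} (B : Bn P) (k : ℕ) : Type := P.F.H k B.p

/-- Its smooth compactly supported sections. -/
abbrev Bn.S {P : Pc} (B : Bn P) : Submodule ℝ (P.M → B.V) := Sec P.I B.p

/-- The constant `cK` for at most `n` frame fields. -/
def cN (n k : ℕ) : ℝ := √((2 * n + 3) ^ k)

theorem cN_nonneg (n k : ℕ) : 0 ≤ cN n k := Real.sqrt_nonneg _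

theorem cK_le {ι : Type} [Fintype ι] {n : ℕ} (h : Fintype.card ι ≤ n) (k : ℕ) :
    cK ι k ≤ cN n k := by
  have : (Fintype.card ι : ℝ) ≤ n := by exact_mod_cast h
  exact Real.sqrt_le_sqrt (pow_le_pow_left₀ (by positivity) (by linarith) k)

/-- The constant for composing with the neck coordinate. -/
def cT (Ct : ℝ) : ℕ → ℝ
  | 0 => 1
  | k + 1 => max 1 (2 ^ (k + 1) * cT Ct k * |Ct|)

theorem one_le_cT (Ct : ℝ) : ∀ k, 1 ≤ cT Ct k
  | 0 => le_rfl
  | _ + 1 => le_max_left _ _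

namespace Pc
variable (P : Pc)

/-- Bounds for the number of frame fields and the differential of the neck coordinate. -/
structure TB (n k : ℕ) (Ct : ℝ) : Prop where
  card : Fintype.card P.ι ≤ n
  sm : An.Sm P.I P.t
  cb : ∀ a, P.F.CB k (P.F.D a P.t) Ct

variable {P} {n k : ℕ} {Ct : ℝ}

theorem TB.of_le (h : P.TB n k Ct) {j : ℕ} (hj : j ≤ k) : P.TB n j Ct :=
  ⟨h.card, h.sm, fun a => CB_of_le (h.cb a) hj⟩

theorem sm_comp (ht : An.Sm P.I P.t) {b : ℝ → ℝ} (hb : ContDiff ℝ ∞ b) :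
    An.Sm P.I fun x => b (P.t x) := hb.contMDiff.comp ht

theorem D_comp (ht : An.Sm P.I P.t) {b : ℝ → ℝ} (hb : ContDiff ℝ ∞ b) (a : P.ι) (x : P.M) :
    P.F.D a (fun x => b (P.t x)) x = deriv b (P.t x) * P.F.D a P.t x := by
  rw [Pre.D_def, dv_comp (ht.mdifferentiableAt (by simp)) (cd_diff hb _).hasDerivAt.hasFDerivAt]
  simp [Pre.D_def, mul_comm]

theorem TB.cb_comp (h : P.TB n k Ct) {b : ℝ → ℝ} (hb : ContDiff ℝ ∞ b) {A : ℝ} (hA : Bd k b A) :
    P.F.CB k (fun x => b (P.t x)) (cT Ct k * A) := by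
  induction k generalizing b with
  | zero => exact CB_zero.2 fun x => by simpa [cT] using hA (P.t x)
  | succ k ih =>
    have h0 := hA.nonneg
    refine CB_succ.2 ⟨fun x => (hA.1 _).trans (le_mul_of_one_le_left h0 (one_le_cT _ _)),
      fun a => ?_⟩
    have e : P.F.D a (fun x => b (P.t x)) =
        fun x => ContinuousLinearMap.mul ℝ ℝ (deriv b (P.t x)) (P.F.D a P.t x) :=
      funext fun x => D_comp h.sm hb a x
    rw [e]
    have h1 := one_le_cT Ct k
    refine CB_mono (CB_bil (ContinuousLinearMap.mul ℝ ℝ) (sm_comp h.sm (cd_deriv hb))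
      (P.F.sm_D h.sm a) (ih (h.of_le k.le_succ) (cd_deriv hb) hA.2)
      (CB_of_le (h.cb a) k.le_succ)) ?_
    rw [abs_of_nonneg (by positivity : 0 ≤ cT Ct k * A)]
    have h2 := ContinuousLinearMap.opNorm_mul_le ℝ ℝ
    calc _ ≤ 2 ^ (k + 1) * 1 * (cT Ct k * A) * |Ct| := by gcongr
      _ = 2 ^ (k + 1) * cT Ct k * |Ct| * A := by ring
      _ ≤ _ := mul_le_mul_of_nonneg_right (le_max_right _ _) h0

/-- Multiplication of a section by a function of `t`. -/
def sc (P : Pc) {V : Type} [SMul ℝ V] (b : ℝ → ℝ) (w : P.M → V) : P.M → V :=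
  fun y => b (P.t y) • w y

theorem sc_mem {B : Bn P} (ht : An.Sm P.I P.t) {b : ℝ → ℝ} (hb : ContDiff ℝ ∞ b) {w : P.M → B.V}
    (hw : w ∈ B.S) : P.sc b w ∈ B.S :=
  ⟨(sm_comp ht hb).smul hw.1, hw.2.1.mono fun x hx h => hx (by simp [sc, h]),
    fun x => (map_smul (B.p x) _ _).trans (by rw [hw.2.2 x]; rfl)⟩

theorem TB.nrm_sc (h : P.TB n k Ct) {B : Bn P} {b : ℝ → ℝ} (hb : ContDiff ℝ ∞ b) {A : ℝ}
    (hA : Bd k b A) {w : P.M → B.V} (hw : w ∈ B.S) :
    P.F.nrm k (P.sc b w) ≤ cN n k * cT Ct k * A * P.F.nrm k w := by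
  have h1 := one_le_cT Ct k
  have h0 := hA.nonneg
  refine (nrm_smul (sm_comp h.sm hb) hw.1 (h.cb_comp hb hA) (FL_of_hcs k hw.1 hw.2.1)).trans ?_
  rw [abs_of_nonneg (by positivity), mul_assoc (cN n k)]
  exact mul_le_mul_of_nonneg_right (mul_le_mul_of_nonneg_right (cK_le h.card k) (by positivity))
    (nrm_nonneg k w)

theorem sc_sc {V : Type} [AddCommGroup V] [Module ℝ V] (b c : ℝ → ℝ) (w : P.M → V) :
    P.sc b (P.sc c w) = P.sc (b * c) w := by
  ext y; simp [sc, mul_smul]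

end Pc

variable {κ : Type*}

/-- Transports of sections over the common parts. -/
structure Trs (K : κ → κ → Set ℝ) (P : κ → Pc) (B : ∀ i, Bn (P i)) (k : ℕ) (C₁ : ℝ) where
  T : ∀ i j, ((P j).M → (B j).V) →ₗ[ℝ] ((P i).M → (B i).V)
  C0 : 0 ≤ C₁
  diag : ∀ i, K i i = univ
  mem : ∀ {i j w}, w ∈ (B j).S → (∀ y, (P j).t y ∉ K i j → w y = 0) → T i j w ∈ (B i).S
  nrm : ∀ {i j w}, w ∈ (B j).S → (∀ y, (P j).t y ∉ K i j → w y = 0) →
    (P i).F.nrm k (T i j w) ≤ C₁ * (P j).F.nrm k w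
  sc : ∀ i j b w, T i j ((P j).sc b w) = (P i).sc b (T i j w)
  id : ∀ i w, w ∈ (B i).S → T i i w = w
  coc : ∀ {i j l w}, w ∈ (B l).S → (∀ y, (P l).t y ∉ K i j ∩ K j l → w y = 0) →
    T i j (T j l w) = T i l w

namespace Trs

variable {K : κ → κ → Set ℝ} {P : κ → Pc} {B : ∀ i, Bn (P i)} {n k : ℕ} {C₁ Ct : ℝ}
  (τ : Trs K P B k C₁)

/-- multiply and transport, on functions -/
def mf (i j : κ) (b : ℝ → ℝ) (w : (P j).M → (B j).V) : (P i).M → (B i).V :=
  τ.T i j ((P j).sc b w)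

/-- multiply and transport, on Sobolev spaces -/
def m (i j : κ) (b : ℝ → ℝ) : (B j).H k →L[ℝ] (B i).H k :=
  (P j).F.liftT k k (B j).p (P i).F (B i).p (τ.mf i j b)

theorem rep' (h : ∀ i, (P i).TB n k Ct) {i j : κ} {b : ℝ → ℝ} (hb : Adm (K i j) b) {A : ℝ}
    (hA : Bd k b A) : (P j).F.RepT (P i).F (τ.m i j b) (τ.mf i j b) ∧
      ‖τ.m i j b‖ ≤ C₁ * (cN n k * cT Ct k * A) := by
  have z : ∀ (w : (P j).M → (B j).V) y, (P j).t y ∉ K i j → (P j).sc b w y = 0 :=
    fun w y hy => by simp [Pc.sc, hb.z _ hy]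
  have h0 := hA.nonneg
  have h1 := one_le_cT Ct k
  have h2 := cN_nonneg n k
  have h3 := τ.C0
  refine rep_liftT (fun w hw => τ.mem (Pc.sc_mem (h j).sm hb.sm.cd hw) (z w))
    (fun u _ v _ => ?_) (fun c u _ => ?_) (by positivity) fun w hw => ?_
  · simp only [mf, ← map_add]; congr 1; ext y; simp [Pc.sc]
  · simp only [mf, ← map_smul]; congr 1; ext y; simp [Pc.sc, smul_comm c]
  · refine (τ.nrm (Pc.sc_mem (h j).sm hb.sm.cd hw) (z w)).trans ?_
    rw [mul_assoc C₁]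
    exact mul_le_mul_of_nonneg_left ((h j).nrm_sc hb.sm.cd hA hw) h3

theorem rep (h : ∀ i, (P i).TB n k Ct) {i j : κ} {b : ℝ → ℝ} (hb : Adm (K i j) b) :
    (P j).F.RepT (P i).F (τ.m i j b) (τ.mf i j b) :=
  let ⟨_, hA⟩ := hb.sm.bd k; (τ.rep' h hb hA).1

/-- **The module structure on Sobolev spaces.** -/
def mod (h : ∀ i, (P i).TB n k Ct) : Mod K (fun i => (B i).H k) k (C₁ * (cN n k * cT Ct k)) where
  m := τ.m
  diag := τ.diag
  one i := by
    refine Pre.RepT.liftT_eq (RepT_congr Rep_id fun u => ?_)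
    have : (P i).sc 1 u.1 = u.1 := by ext y; simp [Pc.sc]
    rw [mf, this, τ.id i _ u.2]; rfl
  add {i j b c} hb hc := by
    refine Pre.RepT.liftT_eq (RepT_congr (RepT_add (τ.rep h hb) (τ.rep h hc)) fun u => ?_)
    simp only [mf, ← map_add]; congr 1; ext y; simp [Pc.sc, add_smul]
  smul {i j b} a hb := by
    refine Pre.RepT.liftT_eq (RepT_congr (RepT_smul a (τ.rep h hb)) fun u => ?_)
    simp only [mf, ← map_smul]; congr 1; ext y; simp [Pc.sc, mul_smul]
  mul {i j l b c} hb hc := by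
    refine (Pre.RepT.liftT_eq (RepT_congr (RepT_comp (τ.rep h hb) (τ.rep h hc)) fun u => ?_)).symm
    simp only [mf]
    rw [← τ.sc, Pc.sc_sc]
    refine τ.coc (Pc.sc_mem (h l).sm (hb.sm.mul hc.sm).cd u.2) fun y hy => ?_
    rw [mem_inter_iff, not_and_or] at hy
    rcases hy with hy | hy
    · simp [Pc.sc, hb.z _ hy]
    · simp [Pc.sc, hc.z _ hy]
  bd {i j b A} hb hA := (τ.rep' h hb hA).2.trans (le_of_eq (by ring))

@[simp] theorem mod_m (h : ∀ i, (P i).TB n k Ct) : (τ.mod h).m = τ.m := rfl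

theorem rep_diag (h : ∀ i, (P i).TB n k Ct) (i : κ) {b : ℝ → ℝ} (hb : Sm b) :
    (P i).F.Rep (τ.m i i b) ((P i).sc b) :=
  RepT_congr (τ.rep h ((τ.mod h).adm hb i)) fun u =>
    τ.id i _ (Pc.sc_mem (h i).sm hb.cd u.2)

theorem m_diag (h : ∀ i, (P i).TB n k Ct) (i : κ) {b : ℝ → ℝ} (hb : Sm b) :
    τ.m i i b = smulH (P i).F k (B i).p fun x => b ((P i).t x) :=
  (Pre.RepT.liftT_eq (τ.rep_diag h i hb)).symm

end Trs

end Crest.Agent.X212.Neck67
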