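import Crest.Agent.X212.Neck67.Rot
import Mathlib.MeasureTheory.Integral.IntervalIntegral.FundThmCalculus

/-!
# Row 212, NECKABS (helper67): weighted estimates and exponential decay on a neck

An operator that is bounded below stays so after conjugation by a weight `exp ψ` with `ψ'` small.
Cutting off a solution gives exponential decay from both ends of a finite neck and on an end.
-/

set_option autoImplicit false

namespace Crest.Agent.X212.Neck67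

open Set Real

variable {ι : Type*} {K : ι → ι → Set ℝ} {E F : ι → Type*} [∀ i, NormedAddCommGroup (E i)]
  [∀ i, NormedSpace ℝ (E i)] [∀ i, NormedAddCommGroup (F i)] [∀ i, NormedSpace ℝ (F i)]
  {k : ℕ} {C : ℝ} (ME : Mod K E k C) (MF : Mod K F k C) {i : ι}

/-- The weight `exp ψ`. -/
noncomputable def ex (ψ : ℝ → ℝ) (t : ℝ) : ℝ := exp (ψ t)

theorem Sm.ex {ψ : ℝ → ℝ} (h : Sm ψ) : Sm (ex ψ) := h.exp

theorem ex_mul_neg (ψ : ℝ → ℝ) : ex ψ * ex (-ψ) = 1 := by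
  ext t; simp [ex, ← exp_add]

theorem deriv_ex {ψ : ℝ → ℝ} (h : Sm ψ) : deriv (ex ψ) = ex ψ * deriv ψ := by
  ext t; exact (h.diff t).hasDerivAt.exp.deriv

/-- Conjugation of `A` by the weight `exp ψ`. -/
noncomputable def cj (A : E i →L[ℝ] F i) (ψ : ℝ → ℝ) : E i →L[ℝ] F i :=
  (MF.m i i (ex ψ)).comp (A.comp (ME.m i i (ex (-ψ))))

/-- **Weighted estimate**, for operators that need not be local. -/
theorem wt_est {A : E i →L[ℝ] F i} {C₀ : ℝ} (hA : ∀ v, ‖v‖ ≤ C₀ * ‖A v‖) (hC : 0 ≤ C₀)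
    {ψ : ℝ → ℝ} (hψ : Sm ψ) (hs : C₀ * ‖cj ME MF A ψ - A‖ ≤ 1 / 2) (v : E i) :
    ‖ME.m i i (ex ψ) v‖ ≤ 2 * C₀ * ‖MF.m i i (ex ψ) (A v)‖ := by
  set w := ME.m i i (ex ψ) v with hw
  have h1 : cj ME MF A ψ w = MF.m i i (ex ψ) (A v) := by
    change MF.m i i (ex ψ) (A (ME.m i i (ex (-ψ)) w)) = _
    rw [hw, ME.mm (ME.adm hψ.neg.ex i) (ME.adm hψ.ex i), mul_comm, ex_mul_neg, ME.one_apply]
  have h2 : A w = MF.m i i (ex ψ) (A v) - (cj ME MF A ψ - A) w := by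
    rw [← h1]; simp
  have h3 : ‖A w‖ ≤ ‖MF.m i i (ex ψ) (A v)‖ + ‖cj ME MF A ψ - A‖ * ‖w‖ := by
    rw [h2]
    exact (norm_sub_le _ _).trans (add_le_add le_rfl (ContinuousLinearMap.le_opNorm _ _))
  have h4 := (hA w).trans (mul_le_mul_of_nonneg_left h3 hC)
  have h5 : C₀ * ‖cj ME MF A ψ - A‖ * ‖w‖ ≤ 1 / 2 * ‖w‖ :=
    mul_le_mul_of_nonneg_right hs (norm_nonneg _)
  nlinarith

/-- `A` is a first order operator in `t` with symbol `σ` in the direction `dt`. -/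
structure Com (A σ : E i →L[ℝ] F i) : Prop where
  op : ∀ b, Sm b → ∀ u, A (ME.m i i b u) = MF.m i i b (A u) + MF.m i i (deriv b) (σ u)
  sym : ∀ b, Sm b → ∀ u, σ (ME.m i i b u) = MF.m i i b (σ u)

variable {ME MF}

theorem Com.cj_sub {A σ : E i →L[ℝ] F i} (h : Com ME MF A σ) {ψ : ℝ → ℝ} (hψ : Sm ψ) :
    cj ME MF A ψ - A = -(MF.m i i (deriv ψ)).comp σ := by
  ext u
  change MF.m i i (ex ψ) (A (ME.m i i (ex (-ψ)) u)) - A u = -MF.m i i (deriv ψ) (σ u)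
  have a1 := MF.adm hψ.ex i
  have e : ex ψ * deriv (ex (-ψ)) = -deriv ψ := by
    rw [deriv_ex hψ.neg, ← mul_assoc, ex_mul_neg, one_mul, deriv.neg']
    rfl
  rw [h.op _ hψ.neg.ex, map_add, MF.mm a1 (MF.adm hψ.neg.ex i),
    MF.mm a1 (MF.adm hψ.neg.ex.deriv i), ex_mul_neg, MF.one_apply, e,
    MF.neg (MF.adm hψ.deriv i)]
  simp

theorem Com.err {A σ : E i →L[ℝ] F i} (h : Com ME MF A σ) {b : ℝ → ℝ} (hb : Sm b) :
    err ME MF A A b = (MF.m i i (deriv b)).comp σ := by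
  ext u
  rw [err_apply, h.op b hb]; simp

/-- A perturbation that commutes with the multipliers keeps `Com`. -/
theorem Com.add {A σ q : E i →L[ℝ] F i} (h : Com ME MF A σ)
    (hq : ∀ b, Sm b → ∀ u, q (ME.m i i b u) = MF.m i i b (q u)) : Com ME MF (A + q) σ := by
  refine ⟨fun b hb u => ?_, h.sym⟩
  simp only [add_apply, h.op b hb, hq b hb, map_add]
  abel

/-- Weighted estimate for a cut-off section. -/
theorem Com.core {A σ : E i →L[ℝ] F i} (h : Com ME MF A σ) {C₀ N : ℝ}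
    (hA : ∀ v, ‖v‖ ≤ C₀ * ‖A v‖) (hC : 0 ≤ C₀) {ψ χ : ℝ → ℝ} (hψ : Sm ψ) (hχ : Sm χ)
    (hN : Bd k (deriv ψ) N) (hs : C₀ * (C * N * ‖σ‖) ≤ 1 / 2) (u : E i) :
    ‖ME.m i i (ex ψ * χ) u‖ ≤
      2 * C₀ * (‖MF.m i i (ex ψ * χ) (A u)‖ + ‖MF.m i i (ex ψ * deriv χ) (σ u)‖) := by
  have h1 : C₀ * ‖cj ME MF A ψ - A‖ ≤ 1 / 2 := by
    refine le_trans (mul_le_mul_of_nonneg_left ?_ hC) hs
    rw [h.cj_sub hψ, norm_neg]
    exact (ContinuousLinearMap.opNorm_comp_le _ _).trans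
      (mul_le_mul_of_nonneg_right (MF.bd (MF.adm hψ.deriv i) hN) (norm_nonneg _))
  have h2 := wt_est ME MF hA hC hψ h1 (ME.m i i χ u)
  have a1 := MF.adm hψ.ex i
  rw [ME.mm a1 (ME.adm hχ i), h.op χ hχ, map_add, MF.mm a1 (MF.adm hχ i),
    MF.mm a1 (MF.adm hχ.deriv i)] at h2
  exact h2.trans (mul_le_mul_of_nonneg_left (norm_add_le _ _) (by positivity))

/-- An operator close to one that is bounded below is bounded below. -/
theorem low_of_low {X Y : Type*} [NormedAddCommGroup X] [NormedSpace ℝ X] [NormedAddCommGroup Y]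
    [NormedSpace ℝ Y] {D A : X →L[ℝ] Y} {C₀ : ℝ} (hD : ∀ v, ‖v‖ ≤ C₀ * ‖D v‖) (hC : 0 ≤ C₀)
    (hs : C₀ * ‖A - D‖ ≤ 1 / 2) (v : X) : ‖v‖ ≤ 2 * C₀ * ‖A v‖ := by
  have h2 : D v = A v - (A - D) v := by simp
  have h3 : ‖D v‖ ≤ ‖A v‖ + ‖A - D‖ * ‖v‖ := by
    rw [h2]
    exact (norm_sub_le _ _).trans (add_le_add le_rfl (ContinuousLinearMap.le_opNorm _ _))
  have h4 := (hD v).trans (mul_le_mul_of_nonneg_left h3 hC)
  have h5 : C₀ * ‖A - D‖ * ‖v‖ ≤ 1 / 2 * ‖v‖ := mul_le_mul_of_nonneg_right hs (norm_nonneg _)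
  nlinarith

/-- The nonlinear equation as a linear one: `s u - s 0 = A u` with `A` the average of `s'`. -/
theorem exists_avg [CompleteSpace (F i)] {s : E i → F i} {s' : E i → E i →L[ℝ] F i}
    {D σ : E i →L[ℝ] F i} {u : E i} {ω : ℝ}
    (hd : ∀ τ ∈ Icc (0 : ℝ) 1, HasFDerivAt s (s' (τ • u)) (τ • u))
    (hc : ContinuousOn (fun τ : ℝ => s' (τ • u)) (Icc 0 1))
    (hcom : ∀ τ ∈ Icc (0 : ℝ) 1, Com ME MF (s' (τ • u)) σ)
    (hω : ∀ τ ∈ Icc (0 : ℝ) 1, ‖s' (τ • u) - D‖ ≤ ω) :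
    ∃ A : E i →L[ℝ] F i, A u = s u - s 0 ∧ Com ME MF A σ ∧ ‖A - D‖ ≤ ω := by
  have hI : uIcc (0 : ℝ) 1 = Icc 0 1 := uIcc_of_le zero_le_one
  have hi : IntervalIntegrable (fun τ : ℝ => s' (τ • u)) MeasureTheory.volume 0 1 :=
    (hI ▸ hc).intervalIntegrable
  have hap : ∀ v, (∫ τ in (0 : ℝ)..1, s' (τ • u)) v = ∫ τ in (0 : ℝ)..1, s' (τ • u) v :=
    fun v => ContinuousLinearMap.intervalIntegral_apply hi v
  have hiv : ∀ v, IntervalIntegrable (fun τ : ℝ => s' (τ • u) v) MeasureTheory.volume 0 1 :=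
    fun v => (hI ▸ hc.clm_apply continuousOn_const).intervalIntegrable
  refine ⟨∫ τ in (0 : ℝ)..1, s' (τ • u), ?_, ⟨fun b hb v => ?_, (hcom 0 ⟨le_rfl, zero_le_one⟩).sym⟩,
    ?_⟩
  · rw [hap]
    have := intervalIntegral.integral_eq_sub_of_hasDerivAt (f := fun τ : ℝ => s (τ • u))
      (f' := fun τ : ℝ => s' (τ • u) u) (a := 0) (b := 1) (fun τ hτ => by
        have h1 := (hd τ (hI ▸ hτ)).comp_hasDerivAt τ ((hasDerivAt_id τ).smul_const u)
        simpa [Function.comp_def] using h1) (hiv u)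
    simpa using this
  · rw [hap, hap, ← (MF.m i i b).intervalIntegral_comp_comm (hiv v)]
    have e : MF.m i i (deriv b) (σ v) = ∫ _ in (0 : ℝ)..1, MF.m i i (deriv b) (σ v) := by simp
    have hiv' : IntervalIntegrable (fun τ : ℝ => MF.m i i b (s' (τ • u) v))
        MeasureTheory.volume 0 1 :=
      (hI ▸ (MF.m i i b).continuous.comp_continuousOn
        (hc.clm_apply continuousOn_const)).intervalIntegrable
    rw [e, ← intervalIntegral.integral_add hiv' intervalIntegrable_const]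
    exact intervalIntegral.integral_congr fun τ hτ => (hcom τ (hI ▸ hτ)).op b hb v
  · have e : (∫ τ in (0 : ℝ)..1, s' (τ • u)) - D = ∫ τ in (0 : ℝ)..1, (s' (τ • u) - D) := by
      rw [intervalIntegral.integral_sub hi intervalIntegrable_const]; simp
    rw [e]
    have := intervalIntegral.norm_integral_le_of_norm_le_const (a := 0) (b := 1) (C := ω)
      (f := fun τ : ℝ => s' (τ • u) - D) (fun τ hτ => hω τ (hI ▸ uIoc_subset_uIcc hτ))
    simpa using this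

section Weights

variable {p q a a' δ : ℝ}

theorem deriv_up_zero (ha : 0 < a) {t : ℝ} (ht : t ∉ Icc p (p + a)) : deriv (up p a) t = 0 := by
  rw [mem_Icc, not_and_or, not_le, not_le] at ht
  rcases ht with ht | ht
  · exact deriv_zero_off isClosed_Ici (fun u hu => up_zero ha (not_le.1 hu).le) t (not_le.2 ht)
  · exact deriv_zero_off isClosed_Iic (fun u hu => up_one ha (not_le.1 hu).le) t (not_le.2 ht)

theorem deriv_dn_zero (ha : 0 < a) {t : ℝ} (ht : t ∉ Icc (q - a) q) : deriv (dn q a) t = 0 := by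
  rw [mem_Icc, not_and_or, not_le, not_le] at ht
  rcases ht with ht | ht
  · exact deriv_zero_off isClosed_Ici (fun u hu => dn_one ha (not_le.1 hu).le) t (not_le.2 ht)
  · exact deriv_zero_off isClosed_Iic (fun u hu => dn_zero ha (not_le.1 hu).le) t (not_le.2 ht)

theorem abs_sub_le_of_bd {b : ℝ → ℝ} (hb : Sm b) {N : ℝ} (hN : Bd 0 (deriv b) N) (s t : ℝ) :
    |b t - b s| ≤ N * |t - s| :=
  Convex.norm_image_sub_le_of_norm_deriv_le (s := univ) (fun x _ => hb.diff x)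
    (fun x _ => hN x) convex_univ trivial trivial

theorem up_le (ha : 1 ≤ a) {t : ℝ} (ht : t ≤ p + 1) : a * up p a t ≤ cS 0 := by
  have ha0 : 0 < a := by linarith
  have hc := one_le_cS 0
  rcases le_total t p with h | h
  · rw [up_zero ha0 h]; linarith
  · have h1 := abs_sub_le_of_bd (sm_up ha p) (bd_deriv_up 0 ha p) p t
    rw [up_zero ha0 le_rfl, sub_zero, abs_of_nonneg (up_mem p a t).1,
      abs_of_nonneg (by linarith)] at h1
    have h2 : a * (a⁻¹ * cS 0 * (t - p)) = cS 0 * (t - p) := by field_simp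
    nlinarith [mul_le_mul_of_nonneg_left h1 ha0.le]

theorem dn_le (ha : 1 ≤ a) {t : ℝ} (ht : q - 1 ≤ t) : a * dn q a t ≤ cS 0 := by
  have ha0 : 0 < a := by linarith
  have hc := one_le_cS 0
  rcases le_total q t with h | h
  · rw [dn_zero ha0 h]; linarith
  · have h1 := abs_sub_le_of_bd (sm_dn ha q) (bd_deriv_dn 0 ha q) q t
    rw [dn_zero ha0 le_rfl, sub_zero, abs_of_nonneg (dn_mem q a t).1,
      abs_of_nonpos (by linarith)] at h1
    have h2 : a * (a⁻¹ * cS 0 * -(t - q)) = cS 0 * (q - t) := by field_simp; ring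
    nlinarith [mul_le_mul_of_nonneg_left h1 ha0.le]

/-- Left weight: `-δ a` left of `p`, `0` right of `p + a`. -/
noncomputable def wl (p a δ : ℝ) : ℝ → ℝ := (δ * a) • (up p a - 1)

/-- Right weight: `0` left of `q - a`, `-δ a` right of `q`. -/
noncomputable def wr (q a δ : ℝ) : ℝ → ℝ := (δ * a) • (dn q a - 1)

theorem sm_wl (ha : 1 ≤ a) : Sm (wl p a δ) := ((sm_up ha p).sub Sm.one).smul _

theorem sm_wr (ha : 1 ≤ a) : Sm (wr q a δ) := ((sm_dn ha q).sub Sm.one).smul _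

theorem deriv_smul_sub_one (x : ℝ) (b : ℝ → ℝ) : deriv (x • (b - 1)) = x • deriv b := by
  ext t
  have h1 : deriv (x • (b - 1)) t = x • deriv (b - 1) t := deriv_const_smul_field x (b - 1) ▸ rfl
  have h2 : deriv (b - 1) t = deriv b t := deriv_sub_const (1 : ℝ)
  rw [h1, h2]; rfl

theorem bd_wl (k : ℕ) (ha : 1 ≤ a) (hδ : 0 ≤ δ) : Bd k (deriv (wl p a δ)) (δ * cS k) := by
  rw [wl, deriv_smul_sub_one]
  refine ((bd_deriv_up k ha p).smul _).mono (le_of_eq ?_)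
  rw [abs_of_nonneg (by positivity)]; field_simp

theorem bd_wr (k : ℕ) (ha : 1 ≤ a) (hδ : 0 ≤ δ) : Bd k (deriv (wr q a δ)) (δ * cS k) := by
  rw [wr, deriv_smul_sub_one]
  refine ((bd_deriv_dn k ha q).smul _).mono (le_of_eq ?_)
  rw [abs_of_nonneg (by positivity)]; field_simp

theorem wl_nonpos (ha : 1 ≤ a) (hδ : 0 ≤ δ) (t : ℝ) : wl p a δ t ≤ 0 :=
  mul_nonpos_of_nonneg_of_nonpos (by positivity) (sub_nonpos.2 (up_mem p a t).2)

theorem wr_nonpos (ha : 1 ≤ a) (hδ : 0 ≤ δ) (t : ℝ) : wr q a δ t ≤ 0 :=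
  mul_nonpos_of_nonneg_of_nonpos (by positivity) (sub_nonpos.2 (dn_mem q a t).2)

theorem wl_zero (ha : 1 ≤ a) {t : ℝ} (ht : p + a ≤ t) : wl p a δ t = 0 := by
  simp [wl, up_one (by linarith) ht]

theorem wr_zero (ha : 1 ≤ a) {t : ℝ} (ht : t ≤ q - a) : wr q a δ t = 0 := by
  simp [wr, dn_one (by linarith) ht]

theorem wl_le (ha : 1 ≤ a) (hδ : 0 ≤ δ) {t : ℝ} (ht : t ≤ p + 1) :
    wl p a δ t ≤ δ * cS 0 - δ * a := by
  have := mul_le_mul_of_nonneg_left (up_le (p := p) ha ht) hδ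
  simp only [wl, Pi.smul_apply, Pi.sub_apply, Pi.one_apply, smul_eq_mul]
  nlinarith

theorem wr_le (ha : 1 ≤ a) (hδ : 0 ≤ δ) {t : ℝ} (ht : q - 1 ≤ t) :
    wr q a δ t ≤ δ * cS 0 - δ * a := by
  have := mul_le_mul_of_nonneg_left (dn_le (q := q) ha ht) hδ
  simp only [wr, Pi.smul_apply, Pi.sub_apply, Pi.one_apply, smul_eq_mul]
  nlinarith

/-- The constant in the decay estimates. -/
noncomputable def cD (k : ℕ) (δ : ℝ) : ℝ :=
  (1 + 2 ^ k * (2 * (δ * cS k))) ^ k * cS k * exp (δ * cS 0)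

theorem cD_nonneg (k : ℕ) (hδ : 0 ≤ δ) : 0 ≤ cD k δ := by
  have := one_le_cS k
  unfold cD; positivity

/-- The boundary term of a weighted estimate. -/
theorem bdry_le {σ : E i →L[ℝ] F i}
    (hσ : ∀ b, Sm b → ∀ u, σ (ME.m i i b u) = MF.m i i b (σ u)) {ψ h γ : ℝ → ℝ} (hψ : Sm ψ)
    (hh : Sm h) (hγ : Sm γ) {J : Set ℝ} (hJ : IsClosed J) (h0 : ∀ t, t ∉ J → h t = 0)
    (h1 : ∀ t ∈ J, γ t = 1) (bh : Bd k h (cS k)) (bψ : Bd k (deriv ψ) (2 * (δ * cS k)))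
    (hle : ∀ t ∈ J, ψ t ≤ δ * cS 0 - δ * a) (u : E i) :
    ‖MF.m i i (ex ψ * h) (σ u)‖ ≤ C * (cD k δ * exp (-(δ * a))) * (‖σ‖ * ‖ME.m i i γ u‖) := by
  have e : ex ψ * h = (h * ex ψ) * γ := by
    ext t
    by_cases ht : t ∈ J
    · simp [h1 t ht, mul_comm]
    · simp [h0 t ht]
  have b1 := Bd.mul_exp hJ hh.cd hψ.cd bh bψ h0 hle
  have a1 := MF.adm (hh.mul hψ.ex) i
  rw [e, ← MF.mm a1 (MF.adm hγ i), ← hσ γ hγ]
  have b2 : Bd k (h * ex ψ) (cD k δ * exp (-(δ * a))) := by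
    refine b1.mono (le_of_eq ?_)
    rw [cD, sub_eq_add_neg, exp_add]; ring
  refine (MF.le a1 b2 _).trans (mul_le_mul_of_nonneg_left (σ.le_opNorm _) ?_)
  exact (norm_nonneg _).trans (MF.bd a1 b2)

end Weights

/-- **Exponential decay on a finite neck.**  If `A u = 0` over `[p, q]`, the part of `u` over
`[p + a, q - a']` is bounded by `exp (-δ a)` and `exp (-δ a')` times the parts over the two end
intervals of length one. -/
theorem Com.decay {A σ : E i →L[ℝ] F i} (h : Com ME MF A σ) {C₀ δ : ℝ}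
    (hA : ∀ v, ‖v‖ ≤ C₀ * ‖A v‖) (hC : 0 ≤ C₀) (hδ : 0 ≤ δ)
    (hs : C₀ * (C * (2 * (δ * cS k)) * ‖σ‖) ≤ 1 / 2) {p q a a' : ℝ} (hpq : p + 1 ≤ q)
    (ha : 1 ≤ a) (ha' : 1 ≤ a') {u : E i} (hu : ∀ b, Adm (Icc p q) b → MF.m i i b (A u) = 0)
    {β γ γ' : ℝ → ℝ} {B : ℝ} (hβ : Adm (Icc (p + a) (q - a')) β) (bβ : Bd k β B) (hγ : Sm γ)
    (hγ1 : ∀ t ∈ Icc p (p + 1), γ t = 1) (hγ' : Sm γ') (hγ1' : ∀ t ∈ Icc (q - 1) q, γ' t = 1) :
    ‖ME.m i i β u‖ ≤ C * B * (2 * C₀ * (C * (cD k δ * exp (-(δ * a))) * (‖σ‖ * ‖ME.m i i γ u‖) +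
      C * (cD k δ * exp (-(δ * a'))) * (‖σ‖ * ‖ME.m i i γ' u‖))) := by
  set ψ := wl p a δ + wr q a' δ with hψd
  set χ : ℝ → ℝ := up p 1 + dn q 1 - 1 with hχd
  have hψ : Sm ψ := (sm_wl ha).add (sm_wr ha')
  have su := sm_up le_rfl p
  have sd := sm_dn le_rfl q
  have hχ : Sm χ := (su.add sd).sub Sm.one
  have bψ : Bd k (deriv ψ) (2 * (δ * cS k)) := by
    have e : deriv ψ = deriv (wl p a δ) + deriv (wr q a' δ) := by
      ext t; exact deriv_add ((sm_wl ha).diff t) ((sm_wr ha').diff t)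
    rw [e, two_mul]
    exact Bd.add (sm_wl ha).deriv.cd (sm_wr ha').deriv.cd (bd_wl k ha hδ) (bd_wr k ha' hδ)
  have dχ : deriv χ = deriv (up p 1) + deriv (dn q 1) := by
    ext t
    rw [hχd, deriv_sub ((su.add sd).diff t) (Sm.one.diff t), deriv_add (su.diff t) (sd.diff t)]
    simp
  have aχ : Adm (Icc p q) χ := ⟨hχ, fun t ht => by
    rw [mem_Icc, not_and_or, not_le, not_le] at ht
    rcases ht with ht | ht
    · simp [hχd, up_zero one_pos ht.le, dn_one one_pos (show t ≤ q - 1 by linarith)]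
    · simp [hχd, dn_zero one_pos ht.le, up_one one_pos (show p + 1 ≤ t by linarith)]⟩
  have h1 := h.core hA hC hψ hχ bψ hs u
  rw [hu _ (aχ.mul_left hψ.ex), norm_zero, zero_add, dχ, mul_add,
    MF.add_apply (MF.adm (hψ.ex.mul su.deriv) i) (MF.adm (hψ.ex.mul sd.deriv) i)] at h1
  have h2 := bdry_le (a := a) h.sym hψ su.deriv hγ isClosed_Icc
    (fun t ht => deriv_up_zero one_pos ht) hγ1 (bd_up k le_rfl p).2 bψ
    (fun t ht => by
      have := wl_le (p := p) ha hδ ht.2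
      have := wr_nonpos (q := q) ha' hδ t
      simp only [hψd, Pi.add_apply]; linarith) u
  have h3 := bdry_le (a := a') h.sym hψ sd.deriv hγ' isClosed_Icc
    (fun t ht => deriv_dn_zero one_pos ht) hγ1' (bd_dn k le_rfl q).2 bψ
    (fun t ht => by
      have := wr_le (q := q) ha' hδ ht.1
      have := wl_nonpos (p := p) ha hδ t
      simp only [hψd, Pi.add_apply]; linarith) u
  have e : β = β * (ex ψ * χ) := by
    ext t
    by_cases ht : t ∈ Icc (p + a) (q - a')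
    · simp [ex, hψd, hχd, wl_zero ha ht.1, wr_zero ha' ht.2,
        up_one one_pos (show p + 1 ≤ t by linarith [ht.1]),
        dn_one one_pos (show t ≤ q - 1 by linarith [ht.2])]
    · simp [hβ.z t ht]
  have aβ := ME.adm hβ.sm i
  rw [e, ← ME.mm aβ (ME.adm (hψ.ex.mul hχ) i)]
  refine (ME.le aβ bβ _).trans (mul_le_mul_of_nonneg_left (h1.trans ?_)
    ((norm_nonneg _).trans (ME.bd aβ bβ)))
  exact mul_le_mul_of_nonneg_left ((norm_add_le _ _).trans (add_le_add h2 h3)) (by positivity)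

/-- **Exponential decay on an end** `[p, ∞)`. -/
theorem Com.decay_right {A σ : E i →L[ℝ] F i} (h : Com ME MF A σ) {C₀ δ : ℝ}
    (hA : ∀ v, ‖v‖ ≤ C₀ * ‖A v‖) (hC : 0 ≤ C₀) (hδ : 0 ≤ δ)
    (hs : C₀ * (C * (2 * (δ * cS k)) * ‖σ‖) ≤ 1 / 2) {p a : ℝ}
    (ha : 1 ≤ a) {u : E i} (hu : ∀ b, Adm (Ici p) b → MF.m i i b (A u) = 0)
    {β γ : ℝ → ℝ} {B : ℝ} (hβ : Adm (Ici (p + a)) β) (bβ : Bd k β B) (hγ : Sm γ)
    (hγ1 : ∀ t ∈ Icc p (p + 1), γ t = 1) :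
    ‖ME.m i i β u‖ ≤
      C * B * (2 * C₀ * (C * (cD k δ * exp (-(δ * a))) * (‖σ‖ * ‖ME.m i i γ u‖))) := by
  have hψ : Sm (wl p a δ) := sm_wl ha
  have su := sm_up le_rfl p
  have bψ : Bd k (deriv (wl p a δ)) (2 * (δ * cS k)) :=
    (bd_wl k ha hδ).mono (by linarith [(bd_wl (p := p) k ha hδ).nonneg])
  have aχ : Adm (Ici p) (up p 1) := ⟨su, fun t ht => up_zero one_pos (not_le.1 ht).le⟩
  have h1 := h.core hA hC hψ su bψ hs u
  rw [hu _ (aχ.mul_left hψ.ex), norm_zero, zero_add] at h1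
  have h2 := bdry_le (a := a) h.sym hψ su.deriv hγ isClosed_Icc
    (fun t ht => deriv_up_zero one_pos ht) hγ1 (bd_up k le_rfl p).2 bψ
    (fun t ht => wl_le ha hδ ht.2) u
  have e : β = β * (ex (wl p a δ) * up p 1) := by
    ext t
    by_cases ht : t ∈ Ici (p + a)
    · simp [ex, wl_zero ha ht, up_one one_pos (show p + 1 ≤ t by linarith [mem_Ici.1 ht])]
    · simp [hβ.z t ht]
  have aβ := ME.adm hβ.sm i
  rw [e, ← ME.mm aβ (ME.adm (hψ.ex.mul su) i)]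
  refine (ME.le aβ bβ _).trans (mul_le_mul_of_nonneg_left (h1.trans ?_)
    ((norm_nonneg _).trans (ME.bd aβ bβ)))
  exact mul_le_mul_of_nonneg_left h2 (by positivity)

/-- **Exponential decay on an end** `(-∞, q]`. -/
theorem Com.decay_left {A σ : E i →L[ℝ] F i} (h : Com ME MF A σ) {C₀ δ : ℝ}
    (hA : ∀ v, ‖v‖ ≤ C₀ * ‖A v‖) (hC : 0 ≤ C₀) (hδ : 0 ≤ δ)
    (hs : C₀ * (C * (2 * (δ * cS k)) * ‖σ‖) ≤ 1 / 2) {q a : ℝ}
    (ha : 1 ≤ a) {u : E i} (hu : ∀ b, Adm (Iic q) b → MF.m i i b (A u) = 0)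
    {β γ : ℝ → ℝ} {B : ℝ} (hβ : Adm (Iic (q - a)) β) (bβ : Bd k β B) (hγ : Sm γ)
    (hγ1 : ∀ t ∈ Icc (q - 1) q, γ t = 1) :
    ‖ME.m i i β u‖ ≤
      C * B * (2 * C₀ * (C * (cD k δ * exp (-(δ * a))) * (‖σ‖ * ‖ME.m i i γ u‖))) := by
  have hψ : Sm (wr q a δ) := sm_wr ha
  have su := sm_dn le_rfl q
  have bψ : Bd k (deriv (wr q a δ)) (2 * (δ * cS k)) :=
    (bd_wr k ha hδ).mono (by linarith [(bd_wr (q := q) k ha hδ).nonneg])
  have aχ : Adm (Iic q) (dn q 1) := ⟨su, fun t ht => dn_zero one_pos (not_le.1 ht).le⟩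
  have h1 := h.core hA hC hψ su bψ hs u
  rw [hu _ (aχ.mul_left hψ.ex), norm_zero, zero_add] at h1
  have h2 := bdry_le (a := a) h.sym hψ su.deriv hγ isClosed_Icc
    (fun t ht => deriv_dn_zero one_pos ht) hγ1 (bd_dn k le_rfl q).2 bψ
    (fun t ht => wr_le ha hδ ht.1) u
  have e : β = β * (ex (wr q a δ) * dn q 1) := by
    ext t
    by_cases ht : t ∈ Iic (q - a)
    · simp [ex, wr_zero ha ht, dn_one one_pos (show t ≤ q - 1 by linarith [mem_Iic.1 ht])]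
    · simp [hβ.z t ht]
  have aβ := ME.adm hβ.sm i
  rw [e, ← ME.mm aβ (ME.adm (hψ.ex.mul su) i)]
  refine (ME.le aβ bβ _).trans (mul_le_mul_of_nonneg_left (h1.trans ?_)
    ((norm_nonneg _).trans (ME.bd aβ bβ)))
  exact mul_le_mul_of_nonneg_left h2 (by positivity)

end Crest.Agent.X212.Neck67
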