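import Crest.Agent.X212.Neck67.Decay
import Crest.Agent.X212.Fred93.Cpt

/-!
# Row 212, NECKABS (helper67): gluing across a long neck

`glue_err`: the gluing theorem from bounds on the four intertwining errors (non-local terms are
allowed).  `excisionF`, `excision_small`: excision in the format of `Fred93`.
`Loc`: maps that are local in the neck coordinate; the error bounds for them.
-/

set_option autoImplicit false
set_option maxHeartbeats 400000

namespace Crest.Agent.X212.Neck67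

open Set Metric Crest.Agent.R275.Fred685

section Bridge

variable {X Y : Type*} [NormedAddCommGroup X] [NormedSpace ℝ X] [CompleteSpace X]
  [NormedAddCommGroup Y] [NormedSpace ℝ Y] [CompleteSpace Y]

theorem fr_of_fred {A : X →L[ℝ] Y} (h : Fred A) : Fred93.Fr A (ind A) :=
  ⟨Fred93.isFredholm_of_finite h.finIdx.1 h.finIdx.2, rfl⟩

theorem fred_of_isFredholm {A : X →L[ℝ] Y} (h : A.IsFredholm) : Fred A := by
  obtain ⟨_, Q, _, π, B, -, -, hB⟩ := Fred93.exists_block h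
  have : CompleteSpace Q := FiniteDimensional.complete ℝ Q
  have h1 : Fred (A.prodMap (0 : Q →L[ℝ] A.ker)) := by
    refine (fred_equiv B).congr (cpt_congr (cpt_block (cpt_zero (A₁ := X) (B₁ := Y))
      (isCompactOperator_of_locallyCompactSpace_rng (-Q.subtypeL))
      (isCompactOperator_of_locallyCompactSpace_dom (-π))
      (cpt_zero (A₁ := Q) (B₁ := A.ker))) fun x => ?_)
    rw [hB]
    ext <;> simp [Fred93.blk]
  exact (fred_of_prodMap h1).1

theorem fr_iff {A : X →L[ℝ] Y} {n : ℤ} : Fred93.Fr A n ↔ Fred A ∧ ind A = n :=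
  ⟨fun h => ⟨fred_of_isFredholm h.1, h.2⟩, fun h => h.2 ▸ fr_of_fred h.1⟩

end Bridge

variable {ι : Type*} {K : ι → ι → Set ℝ} {E F : ι → Type*} [∀ i, NormedAddCommGroup (E i)]
  [∀ i, NormedSpace ℝ (E i)] [∀ i, NormedAddCommGroup (F i)] [∀ i, NormedSpace ℝ (F i)]
  {k : ℕ} {C : ℝ} (ME : Mod K E k C) (MF : Mod K F k C) {L R T Z : ι} {c s : ℝ → ℝ}

section Exc

variable [∀ i, CompleteSpace (E i)] [∀ i, CompleteSpace (F i)]
  {DL : E L →L[ℝ] F L} {DR : E R →L[ℝ] F R} {DT : E T →L[ℝ] F T} {DZ : E Z →L[ℝ] F Z}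

/-- Excision, `Fred93` format: from the closed manifold and the cylinder to the two ends. -/
theorem excisionF (h : Rot4 K L R T Z c s)
    (h1 : IsCompactOperator (err ME MF DT DL c)) (h2 : IsCompactOperator (err ME MF DT DR s))
    (h3 : IsCompactOperator (err ME MF DZ DL s)) (h4 : IsCompactOperator (err ME MF DZ DR c))
    {n m : ℤ} (hT : Fred93.Fr DT n) (hZ : Fred93.Fr DZ m) :
    ∃ a b, Fred93.Fr DL a ∧ Fred93.Fr DR b ∧ a + b = n + m := by
  have e := excision ME MF h h1 h2 h3 h4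
  obtain ⟨l, r⟩ := e.1.2 ⟨(fr_iff.1 hT).1, (fr_iff.1 hZ).1⟩
  refine ⟨_, _, fr_of_fred l, fr_of_fred r, ?_⟩
  rw [← e.2 l r, (fr_iff.1 hT).2, (fr_iff.1 hZ).2]

/-- Excision, `Fred93` format: from `L, R` to `T, Z`. -/
theorem excisionF' (h : Rot4 K L R T Z c s)
    (h1 : IsCompactOperator (err ME MF DT DL c)) (h2 : IsCompactOperator (err ME MF DT DR s))
    (h3 : IsCompactOperator (err ME MF DZ DL s)) (h4 : IsCompactOperator (err ME MF DZ DR c))
    {a b : ℤ} (hL : Fred93.Fr DL a) (hR : Fred93.Fr DR b) :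
    ∃ n m, Fred93.Fr DT n ∧ Fred93.Fr DZ m ∧ n + m = a + b := by
  have e := excision ME MF h h1 h2 h3 h4
  obtain ⟨l, r⟩ := e.1.1 ⟨(fr_iff.1 hL).1, (fr_iff.1 hR).1⟩
  refine ⟨_, _, fr_of_fred l, fr_of_fred r, ?_⟩
  rw [e.2 (fr_iff.1 hL).1 (fr_iff.1 hR).1, (fr_iff.1 hL).2, (fr_iff.1 hR).2]

/-- Excision with small errors: `ε` is a stability radius of `DL ⊕ DR` (`Fr.exists_ball`), which
does not depend on the length of the neck. -/
theorem excision_small (h : Rot4 K L R T Z c s) {A η ε : ℝ} {n : ℤ} (hc : Bd k c A)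
    (hs : Bd k s A) (h1 : ‖err ME MF DT DL c‖ ≤ η) (h2 : ‖err ME MF DT DR s‖ ≤ η)
    (h3 : ‖err ME MF DZ DL s‖ ≤ η) (h4 : ‖err ME MF DZ DR c‖ ≤ η)
    (hε : ∀ B, ‖B - DL.prodMap DR‖ < ε → Fred93.Fr B n) (hη : 2 * (C * A) * (2 * η) < ε) :
    ∃ a b, Fred93.Fr DT a ∧ Fred93.Fr DZ b ∧ a + b = n := by
  have f1 := (hε _ ((norm_fill'_sub_le ME MF h hc hs h1 h2 h3 h4).trans_lt hη)).conj
    (ME.rot h).symm (MF.rot h)
  have f2 : Fred93.Fr (DT.prodMap DZ) n := f1.congr fun x => by simp [fill']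
  obtain ⟨f3, f4⟩ := fr_iff.1 f2
  obtain ⟨t, z⟩ := fred_of_prodMap f3
  exact ⟨_, _, fr_of_fred t, fr_of_fred z, by rw [← ind_prodMap t z, f4]⟩

end Exc

/-- `Near` for the filled map from bounds on the errors. -/
theorem near_err (h : Rot4 K L R T Z c s) {A η a₀ r : ℝ} (hc : Bd k c A) (hs : Bd k s A)
    {sT : E T → F T} {sL' : E L → E L →L[ℝ] F L} {sR' : E R → E R →L[ℝ] F R}
    {sT' : E T → E T →L[ℝ] F T} {D : E Z →L[ℝ] F Z} {L₀ : (E L × E R) ≃L[ℝ] (F L × F R)}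
    {x₀ : E L × E R}
    (hd : ∀ x ∈ closedBall x₀ r, HasFDerivAt sT (sT' (ME.rot h x).1) (ME.rot h x).1)
    (h0 : ∀ x ∈ closedBall x₀ r, ‖(sL' x.1).prodMap (sR' x.2) - L₀‖ ≤ a₀)
    (he : ∀ x ∈ closedBall x₀ r, ‖err ME MF (sT' (ME.rot h x).1) (sL' x.1) c‖ ≤ η ∧
      ‖err ME MF (sT' (ME.rot h x).1) (sR' x.2) s‖ ≤ η ∧ ‖err ME MF D (sL' x.1) s‖ ≤ η ∧
      ‖err ME MF D (sR' x.2) c‖ ≤ η)
    (hn : ‖(L₀.symm : F L × F R →L[ℝ] E L × E R)‖ * (a₀ + 2 * (C * A) * (2 * η)) ≤ 1 / 2) :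
    Near L₀ (fill (ME.rot h) (MF.rot h) sT D)
      (fun x => fill' (ME.rot h) (MF.rot h) (sT' (ME.rot h x).1) D) x₀ r := by
  refine Near.of_close (s' := fun x : E L × E R => (sL' x.1).prodMap (sR' x.2)) (a := a₀)
    (b := 2 * (C * A) * (2 * η)) (fun x hx => ?_) h0 (fun x hx => ?_) hn
  · exact hasFDerivAt_fill (hd x hx)
  · obtain ⟨h1, h2, h3, h4⟩ := he x hx
    exact norm_fill'_sub_le ME MF h hc hs h1 h2 h3 h4

/-- **Gluing theorem from error bounds.** -/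
theorem glue_err [∀ i, CompleteSpace (E i)] (h : Rot4 K L R T Z c s) {A η a₀ r ε : ℝ}
    (hc : Bd k c A) (hs : Bd k s A)
    {sT : E T → F T} {sL' : E L → E L →L[ℝ] F L} {sR' : E R → E R →L[ℝ] F R}
    {sT' : E T → E T →L[ℝ] F T} {D : E Z →L[ℝ] F Z} (hD : Function.Injective D)
    {L₀ : (E L × E R) ≃L[ℝ] (F L × F R)} {x₀ : E L × E R}
    (hd : ∀ x ∈ closedBall x₀ r, HasFDerivAt sT (sT' (ME.rot h x).1) (ME.rot h x).1)
    (h0 : ∀ x ∈ closedBall x₀ r, ‖(sL' x.1).prodMap (sR' x.2) - L₀‖ ≤ a₀)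
    (he : ∀ x ∈ closedBall x₀ r, ‖err ME MF (sT' (ME.rot h x).1) (sL' x.1) c‖ ≤ η ∧
      ‖err ME MF (sT' (ME.rot h x).1) (sR' x.2) s‖ ≤ η ∧ ‖err ME MF D (sL' x.1) s‖ ≤ η ∧
      ‖err ME MF D (sR' x.2) c‖ ≤ η)
    (hn : ‖(L₀.symm : F L × F R →L[ℝ] E L × E R)‖ * (a₀ + 2 * (C * A) * (2 * η)) ≤ 1 / 2)
    (h1 : ‖sT (ME.rot h x₀).1‖ ≤ ε) (h2 : ‖D (ME.rot h x₀).2‖ ≤ ε)
    (hr : 2 * ‖(L₀.symm : F L × F R →L[ℝ] E L × E R)‖ * (2 * (C * A) * ε) ≤ r) :
    (∃! y, (ME.m L T c y, ME.m R T s y) ∈ closedBall x₀ r ∧ sT y = 0) ∧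
      ∀ y, (ME.m L T c y, ME.m R T s y) ∈ closedBall x₀ r → Function.Bijective (sT' y) := by
  have hb := norm_rot_symm_le MF h hc hs
  have := glue_exu hD (near_err ME MF h hc hs hd h0 he hn) (le_trans
    (mul_le_mul_of_nonneg_left (le_trans
      (((MF.rot h).symm : F T × F Z →L[ℝ] F L × F R).le_opNorm _)
      (mul_le_mul hb (by rw [Prod.norm_def]; exact max_le h1 h2) (norm_nonneg _)
        ((norm_nonneg _).trans hb))) (by positivity)) hr)
  simpa only [Mod.rot_symm_zero] using this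

/-- The maps `s i` are local in the neck coordinate and agree over the common parts. -/
def Loc (s : ∀ i, E i → F i) : Prop :=
  ∀ ⦃i j : ι⦄ ⦃b c : ℝ → ℝ⦄, Adm (K i j) b → Adm (K j i) c → b * c = b → ∀ u : E i,
    MF.m i i b (s i u) = MF.m i j b (s j (ME.m j i c u))

variable {ME MF} {S : ∀ i, E i → F i} {S' : ∀ i, E i → E i →L[ℝ] F i}

theorem Loc.der (h : Loc ME MF S) (hd : ∀ i u, HasFDerivAt (S i) (S' i u) u) {i j : ι}
    {b c : ℝ → ℝ} (hb : Adm (K i j) b) (hc : Adm (K j i) c) (e : b * c = b) (u v : E i) :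
    MF.m i i b (S' i u v) = MF.m i j b (S' j (ME.m j i c u) (ME.m j i c v)) := by
  have h1 := (MF.m i i b).hasFDerivAt.comp u (hd i u)
  have h2 := (MF.m i j b).hasFDerivAt.comp u
    ((hd j (ME.m j i c u)).comp u (ME.m j i c).hasFDerivAt)
  have e1 : (MF.m i i b) ∘ S i = (MF.m i j b) ∘ (S j ∘ (ME.m j i c)) :=
    funext fun w => h hb hc e w
  rw [e1] at h1
  exact congrArg (fun A : E i →L[ℝ] F i => A v) (h1.unique h2)

/-- The error between the cylinder and an end. -/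
theorem Loc.err_ZP (h : Loc ME MF S) (hd : ∀ i u, HasFDerivAt (S i) (S' i u) u) {P : ι}
    {D σ : E Z →L[ℝ] F Z} (hcom : Com ME MF D σ) {b η : ℝ → ℝ} {A A' B ω : ℝ}
    (hb : Adm (K P Z) b) (hη : Adm (K Z P) η) (e : b * η = b) (bb : Bd k b A)
    (bb' : Bd k (deriv b) A') (bη : Bd k η B) {u : E P} (hω : ‖S' Z (ME.m Z P η u) - D‖ ≤ ω) :
    ‖err ME MF D (S' P u) b‖ ≤ (C * A' * ‖σ‖ + C * A * ω) * (C * B) := by
  have aZ := ME.adm hb.sm Z
  have aZ' := ME.adm hb.sm.deriv Z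
  have e1 : err ME MF D (S' P u) b = ((MF.m Z Z (deriv b)).comp σ -
      (MF.m Z Z b).comp (S' Z (ME.m Z P η u) - D)).comp (ME.m Z P η) := by
    ext v
    have h1 : ME.m Z P b v = ME.m Z Z b (ME.m Z P η v) := by rw [ME.mm aZ hη, e]
    have h2 : MF.m Z P b (S' P u v) = MF.m Z Z b (S' Z (ME.m Z P η u) (ME.m Z P η v)) := by
      have := congrArg (MF.m Z P η) (h.der hd hb hη e u v)
      rwa [MF.mm hη (MF.adm hb.sm P), MF.mm hη hb, mul_comm η b, e] at this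
    rw [err_apply, h1, h2, hcom.op b hb.sm]
    simp
    abel
  have n1 := MF.bd aZ' bb'
  have n2 := MF.bd aZ bb
  have n3 := ME.bd hη bη
  rw [e1]
  refine (ContinuousLinearMap.opNorm_comp_le _ _).trans (mul_le_mul ((norm_sub_le _ _).trans
    (add_le_add ((ContinuousLinearMap.opNorm_comp_le _ _).trans
      (mul_le_mul_of_nonneg_right n1 (norm_nonneg _)))
      ((ContinuousLinearMap.opNorm_comp_le _ _).trans
        (mul_le_mul n2 hω (norm_nonneg _) ((norm_nonneg _).trans n2))))) n3 (norm_nonneg _) ?_)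
  exact add_nonneg (mul_nonneg ((norm_nonneg _).trans n1) (norm_nonneg _))
    (mul_nonneg ((norm_nonneg _).trans n2) ((norm_nonneg _).trans hω))

theorem Mod.split3 (M : Mod K E k C) {i : ι} {α β γ : ℝ → ℝ} (hα : Sm α) (hβ : Sm β) (hγ : Sm γ)
    (e : α + β + γ = 1) (u : E i) : u = M.m i i α u + M.m i i β u + M.m i i γ u := by
  rw [← M.add_apply (M.adm hα i) (M.adm hβ i), ← M.add_apply (M.adm (hα.add hβ) i) (M.adm hγ i),
    e, M.one_apply]

/-- The error between the glued manifold and an end. -/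
theorem Loc.err_TP (h : Loc ME MF S) (hd : ∀ i u, HasFDerivAt (S i) (S' i u) u) {P : ι}
    {D σ : E Z →L[ℝ] F Z} (hcom : Com ME MF D σ) {b α γ α₂ γ₂ β η η₂ : ℝ → ℝ} {A A' B ω : ℝ}
    (hb : Adm (K T P) b) (hα : Adm (K P T) α) (hγ : Adm (K T P) γ) (hα₂ : Sm α₂) (hγ₂ : Sm γ₂)
    (hβ : Adm (K T Z) β) (hβ' : Adm (K P Z) β) (hη : Adm (K Z T) η) (hη₂ : Adm (K Z P) η₂)
    (e0 : α + β + α₂ = 1) (e1 : α * γ = α) (e2 : γ * b = γ) (e3 : α₂ * γ₂ = α₂)
    (e4 : γ₂ * b = 0) (e5 : β * η = β) (e6 : η * b = b * η₂) (e7 : β * η₂ = β)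
    (bb : Bd k b A) (bb' : Bd k (deriv b) A') (bβ : Bd k β B) (bη : Bd k η₂ B) {u : E P} {y : E T}
    (hy : ME.m T T γ y = ME.m T P γ u) (hω₁ : ‖S' Z (ME.m Z T η y) - D‖ ≤ ω)
    (hω₂ : ‖S' Z (ME.m Z P η₂ u) - D‖ ≤ ω) :
    ‖err ME MF (S' T y) (S' P u) b‖ ≤
      C * B * ((ω * (C * A) + C * A' * ‖σ‖ + C * A * ω) * (C * B)) := by
  have aT := fun {f : ℝ → ℝ} (hf : Sm f) => ME.adm hf T
  have aZ := ME.adm hb.sm Z
  have aZ' := ME.adm hb.sm.deriv Z
  have e8 : α * b = α := by rw [← e1, mul_assoc, e2]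
  have e9 : α₂ * b = 0 := by rw [← e3, mul_assoc, e4, mul_zero]
  have ee : err ME MF (S' T y) (S' P u) b = (MF.m T Z β).comp
      (((S' Z (ME.m Z T η y) - D).comp (ME.m Z Z b) + (MF.m Z Z (deriv b)).comp σ -
        (MF.m Z Z b).comp (S' Z (ME.m Z P η₂ u) - D)).comp (ME.m Z P η₂)) := by
    ext v
    have p1 : MF.m T T α (err ME MF (S' T y) (S' P u) b v) = 0 := by
      have q1 := congrArg (MF.m T P γ) (h.der hd hα hγ e1 u v)
      rw [MF.mm hγ (MF.adm hα.sm P), MF.mm hγ hα, mul_comm γ α, e1] at q1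
      rw [err_apply, map_sub, h.der hd (aT hα.sm) (aT hγ.sm) e1, hy, ME.mm (aT hγ.sm) hb, e2,
        MF.mm (aT hα.sm) hb, e8, q1, sub_self]
    have p2 : MF.m T T α₂ (err ME MF (S' T y) (S' P u) b v) = 0 := by
      rw [err_apply, map_sub, h.der hd (aT hα₂) (aT hγ₂) e3, ME.mm (aT hγ₂) hb, e4,
        MF.mm (aT hα₂) hb, e9, ME.zero, MF.zero]
      simp
    have q2 := congrArg (MF.m T P b) (h.der hd hβ' hη₂ e7 u v)
    rw [MF.mm hb (MF.adm hβ.sm P), MF.mm hb hβ', mul_comm b β] at q2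
    rw [MF.split3 hα.sm hβ.sm hα₂ e0 (err ME MF (S' T y) (S' P u) b v), p1, p2, zero_add,
      add_zero, err_apply, map_sub, h.der hd hβ hη e5, ME.mm hη hb, e6, ← ME.mm aZ hη₂,
      MF.mm (aT hβ.sm) hb, q2, ← MF.mm hβ aZ]
    simp [hcom.op b hb.sm]
    abel
  have n0 := MF.bd hβ bβ
  have n1 := MF.bd aZ' bb'
  have n2 := MF.bd aZ bb
  have n2' := ME.bd aZ bb
  have n3 := ME.bd hη₂ bη
  have w0 : 0 ≤ ω := (norm_nonneg _).trans hω₁
  have c0 : 0 ≤ C * A := (norm_nonneg _).trans n2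
  have c1 : 0 ≤ C * A' := (norm_nonneg _).trans n1
  rw [ee]
  refine (ContinuousLinearMap.opNorm_comp_le _ _).trans (mul_le_mul n0
    ((ContinuousLinearMap.opNorm_comp_le _ _).trans (mul_le_mul ((norm_sub_le _ _).trans
      (add_le_add ((norm_add_le _ _).trans (add_le_add
        ((ContinuousLinearMap.opNorm_comp_le _ _).trans (mul_le_mul hω₁ n2' (norm_nonneg _) w0))
        ((ContinuousLinearMap.opNorm_comp_le _ _).trans
          (mul_le_mul_of_nonneg_right n1 (norm_nonneg _)))))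
      ((ContinuousLinearMap.opNorm_comp_le _ _).trans
        (mul_le_mul n2 hω₂ (norm_nonneg _) c0)))) n3 (norm_nonneg _) (by positivity)))
    (norm_nonneg _) ((norm_nonneg _).trans n0))

/-- The part of the glued equation over the region of a solved end vanishes. -/
theorem Loc.val_P (h : Loc ME MF S) {P : ι} {α γ : ℝ → ℝ} (hα : Adm (K P T) α)
    (hγ : Adm (K T P) γ) (e1 : α * γ = α) {u : E P} {y : E T}
    (hy : ME.m T T γ y = ME.m T P γ u) (hu : S P u = 0) : MF.m T T α (S T y) = 0 := by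
  have q1 := congrArg (MF.m T P γ) (h hα hγ e1 u)
  rw [hu, map_zero, map_zero, MF.mm hγ hα, mul_comm γ α, e1] at q1
  rw [h (ME.adm hα.sm T) (ME.adm hγ.sm T) e1, hy, ← q1]

end Crest.Agent.X212.Neck67
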