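import Crest.Agent.X212.Neck67.Glue

/-!
# Row 212, NECKABS (helper67): the gluing theorem for local maps on a long neck

`Neck K L R T Z p q`: the four spaces agree as they should over the neck `[p, q]`.
`Loc.errs`, `Loc.vals`: the hypotheses of `glue_err` for local maps; `glue_loc`: the theorem with
constants that do not depend on the length of the neck.
-/

set_option autoImplicit false
set_option maxHeartbeats 400000
set_option linter.unusedSectionVars false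

namespace Crest.Agent.X212.Neck67

open Set Metric

variable {ι : Type*} {K : ι → ι → Set ℝ} {E F : ι → Type*} [∀ i, NormedAddCommGroup (E i)]
  [∀ i, NormedSpace ℝ (E i)] [∀ i, NormedAddCommGroup (F i)] [∀ i, NormedSpace ℝ (F i)]
  {k : ℕ} {C : ℝ} {ME : Mod K E k C} {MF : Mod K F k C} {L R T Z : ι} {c s : ℝ → ℝ} {p q : ℝ}

/-- The overlaps of a left end, a right end, the glued manifold and the cylinder. -/
structure Neck (K : ι → ι → Set ℝ) (L R T Z : ι) (p q : ℝ) : Prop where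
  TL : Iic q ⊆ K T L
  LT : Iic q ⊆ K L T
  ZR : Iic q ⊆ K Z R
  RZ : Iic q ⊆ K R Z
  TR : Ici p ⊆ K T R
  RT : Ici p ⊆ K R T
  ZL : Ici p ⊆ K Z L
  LZ : Ici p ⊆ K L Z
  TZ : Icc p q ⊆ K T Z
  ZT : Icc p q ⊆ K Z T

theorem adm_Iic {b : ℝ → ℝ} (hb : Sm b) {q' : ℝ} (h : ∀ t, q' ≤ t → b t = 0) (hq : q' ≤ q) :
    Adm (Iic q) b := ⟨hb, fun t ht => h t (hq.trans (not_le.1 ht).le)⟩

theorem adm_Ici {b : ℝ → ℝ} (hb : Sm b) {p' : ℝ} (h : ∀ t, t ≤ p' → b t = 0) (hp : p ≤ p') :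
    Adm (Ici p) b := ⟨hb, fun t ht => h t ((not_le.1 ht).le.trans hp)⟩

theorem adm_Icc {b : ℝ → ℝ} (h : Adm (Ici p) b) (h' : Adm (Iic q) b) : Adm (Icc p q) b :=
  ⟨h.sm, fun t ht => by
    by_cases h1 : t ∈ Ici p
    · exact h'.z t fun h2 => ht ⟨h1, h2⟩
    · exact h.z t h1⟩

theorem adm_up (p : ℝ) {p' : ℝ} (h : p ≤ p') : Adm (Ici p) (up p' 1) :=
  adm_Ici (sm_up le_rfl p') (fun _ => up_zero one_pos) h

theorem adm_dn (q : ℝ) {q' : ℝ} (h : q' ≤ q) : Adm (Iic q) (dn q' 1) :=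
  adm_Iic (sm_dn le_rfl q') (fun _ => dn_zero one_pos) h

theorem Neck.rot4 (h : Neck K L R T Z p q) {p' q' : ℝ} (hr : RotP c s p' q') (hp : p ≤ p')
    (hq : q' ≤ q) : Rot4 K L R T Z c s :=
  have hc := adm_Iic hr.smc hr.c0 hq
  have hs := adm_Ici hr.sms hr.s0 hp
  ⟨hr.sq, hc.mono h.TL, hc.mono h.LT, hc.mono h.ZR, hc.mono h.RZ, hs.mono h.TR, hs.mono h.RT,
    hs.mono h.ZL, hs.mono h.LZ⟩

theorem mul_eq_of_lt {b c : ℝ → ℝ} {x : ℝ} (h0 : ∀ t, x ≤ t → b t = 0)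
    (h1 : ∀ t, t ≤ x → c t = 1) : b * c = b := by
  ext t
  rcases le_total x t with h | h
  · simp [h0 t h]
  · simp [h1 t h]

theorem mul_eq_of_gt {b c : ℝ → ℝ} {x : ℝ} (h0 : ∀ t, t ≤ x → b t = 0)
    (h1 : ∀ t, x ≤ t → c t = 1) : b * c = b := by
  ext t
  rcases le_total x t with h | h
  · simp [h1 t h]
  · simp [h0 t h]

theorem mul_eq_zero_of {b c : ℝ → ℝ} {x : ℝ} (h0 : ∀ t, x ≤ t → b t = 0)
    (h1 : ∀ t, t ≤ x → c t = 0) : b * c = 0 := by
  ext t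
  rcases le_total x t with h | h
  · simp [h0 t h]
  · simp [h1 t h]

/-- The middle cut-off. -/
noncomputable def mid (p q : ℝ) : ℝ → ℝ := 1 - dn (p + 2) 1 - up (q - 2) 1

theorem sm_mid : Sm (mid p q) := (Sm.one.sub (sm_dn le_rfl _)).sub (sm_up le_rfl _)

theorem bd_mid (k : ℕ) : Bd k (mid p q) (3 * cS k) := by
  have h1 : Bd k (1 : ℝ → ℝ) (cS k) := Bd.const (a := 1) (by simpa using one_le_cS k)
  have := Bd.sub (Sm.one.sub (sm_dn le_rfl (p + 2))).cd (sm_up le_rfl (q - 2)).cd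
    (Bd.sub Sm.one.cd (sm_dn le_rfl _).cd h1 (bd_dn k le_rfl _).of_succ) (bd_up k le_rfl _).of_succ
  exact this.mono (le_of_eq (by ring))

theorem mid_left (hpq : p + 6 ≤ q) (t : ℝ) (ht : t ≤ p + 1) : mid p q t = 0 := by
  simp [mid, dn_one one_pos (show t ≤ p + 2 - 1 by linarith),
    up_zero one_pos (show t ≤ q - 2 by linarith)]

theorem mid_right (hpq : p + 6 ≤ q) (t : ℝ) (ht : q - 1 ≤ t) : mid p q t = 0 := by
  simp [mid, dn_zero one_pos (show p + 2 ≤ t by linarith),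
    up_one one_pos (show q - 2 + 1 ≤ t by linarith)]

section Main

variable (hN : Neck K L R T Z p q) (hpq : p + 6 ≤ q) (hr : RotP c s (p + 3) (q - 3))
include hN hpq hr

omit hpq in
theorem Neck.rot : Rot4 K L R T Z c s := hN.rot4 hr (by linarith) (by linarith)

theorem glue_left (u : E L) (v : E R) :
    ME.m T T (dn (p + 3) 1) (ME.m T L c u + ME.m T R s v) = ME.m T L (dn (p + 3) 1) u := by
  have h := hN.rot hr
  have a := ME.adm (sm_dn le_rfl (p + 3)) T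
  rw [map_add, ME.mm a h.TL, ME.mm a h.TR, mul_eq_of_lt (fun _ => dn_zero one_pos) hr.c1,
    mul_eq_zero_of (fun _ => dn_zero one_pos) hr.s0, ME.zero]
  simp

theorem glue_right (u : E L) (v : E R) :
    ME.m T T (up (q - 3) 1) (ME.m T L c u + ME.m T R s v) = ME.m T R (up (q - 3) 1) v := by
  have h := hN.rot hr
  have a := ME.adm (sm_up le_rfl (q - 3)) T
  rw [map_add, ME.mm a h.TL, ME.mm a h.TR, mul_eq_of_gt (fun _ => up_zero one_pos) hr.s1,
    mul_comm (up (q - 3) 1) c, mul_eq_zero_of hr.c0 (fun _ => up_zero one_pos), ME.zero]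
  simp

theorem c_dn : c * dn q 1 = c :=
  mul_eq_of_lt hr.c0 fun _ ht => dn_one one_pos (by linarith)

theorem s_up : s * up p 1 = s :=
  mul_eq_of_gt hr.s0 fun _ ht => up_one one_pos (by linarith)

theorem eta_c : up p 1 * dn q 1 * c = c * up p 1 := by
  rw [mul_assoc, mul_comm (dn q 1) c, c_dn hN hpq hr, mul_comm]

theorem eta_s : up p 1 * dn q 1 * s = s * dn q 1 := by
  rw [mul_comm (up p 1), mul_assoc, mul_comm (up p 1) s, s_up hN hpq hr, mul_comm]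

omit hr in
theorem adm_eta : Adm (K Z T) (up p 1 * dn q 1) :=
  (adm_Icc ((adm_up p le_rfl).mul_right (sm_dn le_rfl q))
    ((adm_dn q le_rfl).mul_left (sm_up le_rfl p))).mono hN.ZT

theorem glue_mid (u : E L) (v : E R) :
    ME.m Z T (up p 1 * dn q 1) (ME.m T L c u + ME.m T R s v) =
      ME.m Z Z c (ME.m Z L (up p 1) u) + ME.m Z Z s (ME.m Z R (dn q 1) v) := by
  have h := hN.rot hr
  rw [map_add, ME.mm (adm_eta hN hpq) h.TL, ME.mm (adm_eta hN hpq) h.TR, eta_c hN hpq hr,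
    eta_s hN hpq hr, ME.mm (ME.adm hr.smc Z) ((adm_up p le_rfl).mono hN.ZL),
    ME.mm (ME.adm hr.sms Z) ((adm_dn q le_rfl).mono hN.ZR)]

theorem anti_eq (u : E L) (v : E R) : -ME.m Z L s u + ME.m Z R c v =
    -ME.m Z Z s (ME.m Z L (up p 1) u) + ME.m Z Z c (ME.m Z R (dn q 1) v) := by
  rw [ME.mm (ME.adm hr.sms Z) ((adm_up p le_rfl).mono hN.ZL),
    ME.mm (ME.adm hr.smc Z) ((adm_dn q le_rfl).mono hN.ZR), s_up hN hpq hr, c_dn hN hpq hr]

theorem norm_glue_mid {A τ : ℝ} (hc : Bd k c A) (hs : Bd k s A) {u : E L} {v : E R}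
    (hu : ‖ME.m Z L (up p 1) u‖ ≤ τ) (hv : ‖ME.m Z R (dn q 1) v‖ ≤ τ) :
    ‖ME.m Z T (up p 1 * dn q 1) (ME.m T L c u + ME.m T R s v)‖ ≤ 2 * (C * A) * τ := by
  have c0 : 0 ≤ C * A := (norm_nonneg _).trans (ME.bd (ME.adm hr.smc Z) hc)
  rw [glue_mid hN hpq hr]
  have h1 := (ME.le (ME.adm hr.smc Z) hc _).trans (mul_le_mul_of_nonneg_left hu c0)
  have h2 := (ME.le (ME.adm hr.sms Z) hs _).trans (mul_le_mul_of_nonneg_left hv c0)
  exact (norm_add_le _ _).trans (by linarith)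

theorem norm_anti {A τ : ℝ} (hc : Bd k c A) (hs : Bd k s A) {u : E L} {v : E R}
    (hu : ‖ME.m Z L (up p 1) u‖ ≤ τ) (hv : ‖ME.m Z R (dn q 1) v‖ ≤ τ) :
    ‖-ME.m Z L s u + ME.m Z R c v‖ ≤ 2 * (C * A) * τ := by
  have c0 : 0 ≤ C * A := (norm_nonneg _).trans (ME.bd (ME.adm hr.smc Z) hc)
  rw [anti_eq hN hpq hr]
  have h1 := (ME.le (ME.adm hr.sms Z) hs _).trans (mul_le_mul_of_nonneg_left hu c0)
  have h2 := (ME.le (ME.adm hr.smc Z) hc _).trans (mul_le_mul_of_nonneg_left hv c0)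
  refine (norm_add_le _ _).trans ?_
  rw [norm_neg]; linarith

variable {S : ∀ i, E i → F i} {S' : ∀ i, E i → E i →L[ℝ] F i}

/-- The four error bounds for local maps. -/
theorem Loc.errs (h : Loc ME MF S) (hd : ∀ i u, HasFDerivAt (S i) (S' i u) u)
    {D σ : E Z →L[ℝ] F Z} (hcom : Com ME MF D σ) {A A' ω ρ τ : ℝ} (hc : Bd k c A) (hs : Bd k s A)
    (hc' : Bd k (deriv c) A') (hs' : Bd k (deriv s) A')
    (hω : ∀ w, ‖w‖ ≤ ρ → ‖S' Z w - D‖ ≤ ω) (h1 : τ ≤ ρ) (h2 : 2 * (C * A) * τ ≤ ρ)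
    {u : E L} {v : E R} (hu : ‖ME.m Z L (up p 1) u‖ ≤ τ) (hv : ‖ME.m Z R (dn q 1) v‖ ≤ τ) :
    (‖err ME MF (S' T (ME.m T L c u + ME.m T R s v)) (S' L u) c‖ ≤
        C * (3 * cS k) * ((ω * (C * A) + C * A' * ‖σ‖ + C * A * ω) * (C * (3 * cS k))) ∧
      ‖err ME MF (S' T (ME.m T L c u + ME.m T R s v)) (S' R v) s‖ ≤
        C * (3 * cS k) * ((ω * (C * A) + C * A' * ‖σ‖ + C * A * ω) * (C * (3 * cS k)))) ∧
      ‖err ME MF D (S' L u) s‖ ≤ (C * A' * ‖σ‖ + C * A * ω) * (C * (3 * cS k)) ∧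
      ‖err ME MF D (S' R v) c‖ ≤ (C * A' * ‖σ‖ + C * A * ω) * (C * (3 * cS k)) := by
  have r := hN.rot hr
  have c3 : cS k ≤ 3 * cS k := by linarith [one_le_cS k]
  have bu : Bd k (up p 1) (3 * cS k) := (bd_up k le_rfl p).of_succ.mono c3
  have bd : Bd k (dn q 1) (3 * cS k) := (bd_dn k le_rfl q).of_succ.mono c3
  have au := adm_up p le_rfl
  have ad := adm_dn q le_rfl
  have m1 : Adm (Ici p) (mid p q) := adm_Ici sm_mid (mid_left hpq) (by linarith)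
  have m2 : Adm (Iic q) (mid p q) := adm_Iic sm_mid (mid_right hpq) (by linarith)
  have e1 : mid p q * up p 1 = mid p q := mul_eq_of_gt (mid_left hpq) fun _ => up_one one_pos
  have e2 : mid p q * dn q 1 = mid p q := mul_eq_of_lt (mid_right hpq) fun _ => dn_one one_pos
  have e3 : mid p q * (up p 1 * dn q 1) = mid p q := by rw [← mul_assoc, e1, e2]
  have e4 : dn (p + 2) 1 * dn (p + 3) 1 = dn (p + 2) 1 :=
    mul_eq_of_lt (fun _ => dn_zero one_pos) fun _ ht => dn_one one_pos (by linarith)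
  have e5 : up (q - 2) 1 * up (q - 3) 1 = up (q - 2) 1 :=
    mul_eq_of_gt (fun _ => up_zero one_pos) fun _ ht => up_one one_pos (by linarith)
  have w1 := hω _ ((norm_glue_mid hN hpq hr hc hs hu hv).trans h2)
  refine ⟨⟨?_, ?_⟩, h.err_ZP hd hcom r.LZ (au.mono hN.ZL) (s_up hN hpq hr) hs hs' bu
    (hω _ (hu.trans h1)), h.err_ZP hd hcom r.RZ (ad.mono hN.ZR) (c_dn hN hpq hr) hc hc' bd
    (hω _ (hv.trans h1))⟩
  · exact h.err_TP hd hcom r.TL ((adm_dn q (by linarith)).mono hN.LT)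
      ((adm_dn q (by linarith)).mono hN.TL) (sm_up le_rfl (q - 2)) (sm_up le_rfl (q - 3))
      ((adm_Icc m1 m2).mono hN.TZ) (m1.mono hN.LZ) (adm_eta hN hpq) (au.mono hN.ZL)
      (by simp only [mid]; ring) e4 (mul_eq_of_lt (fun _ => dn_zero one_pos) hr.c1) e5
      (by rw [mul_comm]; exact mul_eq_zero_of hr.c0 fun _ => up_zero one_pos) e3
      (eta_c hN hpq hr) e1 hc hc' (bd_mid k) bu (glue_left hN hpq hr u v) w1 (hω _ (hu.trans h1))
  · exact h.err_TP hd hcom r.TR ((adm_up p (by linarith)).mono hN.RT)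
      ((adm_up p (by linarith)).mono hN.TR) (sm_dn le_rfl (p + 2)) (sm_dn le_rfl (p + 3))
      ((adm_Icc m1 m2).mono hN.TZ) (m2.mono hN.RZ) (adm_eta hN hpq) (ad.mono hN.ZR)
      (by simp only [mid]; ring) e5 (mul_eq_of_gt (fun _ => up_zero one_pos) hr.s1) e4
      (mul_eq_zero_of (fun _ => dn_zero one_pos) hr.s0) e3
      (eta_s hN hpq hr) e2 hs hs' (bd_mid k) bd (glue_right hN hpq hr u v) w1 (hω _ (hv.trans h1))

/-- The pre-glued configuration almost solves the equation. -/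
theorem Loc.val (h : Loc ME MF S) (hd : ∀ u, HasFDerivAt (S Z) (S' Z u) u) (h0 : S Z 0 = 0)
    {D : E Z →L[ℝ] F Z} {A ω ρ τ : ℝ} (hc : Bd k c A) (hs : Bd k s A)
    (hω : ∀ w, ‖w‖ ≤ ρ → ‖S' Z w - D‖ ≤ ω) (h2 : 2 * (C * A) * τ ≤ ρ)
    {u : E L} {v : E R} (hu : ‖ME.m Z L (up p 1) u‖ ≤ τ) (hv : ‖ME.m Z R (dn q 1) v‖ ≤ τ)
    (su : S L u = 0) (sv : S R v = 0) :
    ‖S T (ME.m T L c u + ME.m T R s v)‖ ≤ C * (3 * cS k) * ((‖D‖ + ω) * (2 * (C * A) * τ)) := by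
  have m1 : Adm (Ici p) (mid p q) := adm_Ici sm_mid (mid_left hpq) (by linarith)
  have m2 : Adm (Iic q) (mid p q) := adm_Iic sm_mid (mid_right hpq) (by linarith)
  have e1 : mid p q * up p 1 = mid p q := mul_eq_of_gt (mid_left hpq) fun _ => up_one one_pos
  have e2 : mid p q * dn q 1 = mid p q := mul_eq_of_lt (mid_right hpq) fun _ => dn_one one_pos
  have e3 : mid p q * (up p 1 * dn q 1) = mid p q := by rw [← mul_assoc, e1, e2]
  have e4 : dn (p + 2) 1 * dn (p + 3) 1 = dn (p + 2) 1 :=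
    mul_eq_of_lt (fun _ => dn_zero one_pos) fun _ ht => dn_one one_pos (by linarith)
  have e5 : up (q - 2) 1 * up (q - 3) 1 = up (q - 2) 1 :=
    mul_eq_of_gt (fun _ => up_zero one_pos) fun _ ht => up_one one_pos (by linarith)
  have p1 := h.val_P ((adm_dn q (by linarith)).mono hN.LT) ((adm_dn q (by linarith)).mono hN.TL)
    e4 (glue_left hN hpq hr u v) su
  have p2 := h.val_P ((adm_up p (by linarith)).mono hN.RT) ((adm_up p (by linarith)).mono hN.TR)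
    e5 (glue_right hN hpq hr u v) sv
  have mT := (adm_Icc m1 m2).mono hN.TZ
  have n1 := norm_glue_mid (ME := ME) hN hpq hr hc hs hu hv
  rw [MF.split3 (sm_dn le_rfl (p + 2)) sm_mid (sm_up le_rfl (q - 2)) (by simp only [mid]; ring)
    (S T _), p1, p2, zero_add, add_zero, h mT (adm_eta hN hpq) e3]
  set w := ME.m Z T (up p 1 * dn q 1) (ME.m T L c u + ME.m T R s v)
  have hρ : 0 ≤ ρ := (norm_nonneg _).trans (n1.trans h2)
  have n2 : ‖S Z w - S Z 0‖ ≤ (‖D‖ + ω) * ‖w - 0‖ :=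
    (convex_closedBall (0 : E Z) ρ).norm_image_sub_le_of_norm_hasFDerivWithin_le
      (fun x _ => (hd x).hasFDerivWithinAt) (fun x hx => by
        have := hω x (mem_closedBall_zero_iff.1 hx)
        have e : S' Z x = D + (S' Z x - D) := by abel
        rw [e]; exact (norm_add_le _ _).trans (by linarith))
      (mem_closedBall_self hρ) (mem_closedBall_zero_iff.2 (n1.trans h2))
  rw [h0, sub_zero, sub_zero] at n2
  have w0 : 0 ≤ ω := (norm_nonneg _).trans (hω 0 (by simpa using hρ))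
  exact (MF.le mT (bd_mid k) _).trans (mul_le_mul_of_nonneg_left
    (n2.trans (mul_le_mul_of_nonneg_left n1 (by positivity)))
    ((norm_nonneg _).trans (MF.bd mT (bd_mid k))))

end Main

theorem norm_tail_le {i j : ι} {η : ℝ → ℝ} (hη : Adm (K i j) η) {B τ r : ℝ} (bη : Bd k η B)
    {x x₀ : E j} (h0 : ‖ME.m i j η x₀‖ ≤ τ) (hx : ‖x - x₀‖ ≤ r) :
    ‖ME.m i j η x‖ ≤ τ + C * B * r := by
  have e : ME.m i j η x = ME.m i j η x₀ + ME.m i j η (x - x₀) := by simp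
  rw [e]
  exact (norm_add_le _ _).trans (add_le_add h0 ((ME.le hη bη _).trans
    (mul_le_mul_of_nonneg_left hx ((norm_nonneg _).trans (ME.bd hη bη)))))

universe u v w

/-- **Gluing across a long neck, local maps.**  The constants `ε, P, A` depend only on the bounds
`C` (multipliers), `N` (the cylinder operator and its symbol), `Λ` (the inverse of the linearised
operator at the broken solution), not on the length of the neck. -/
theorem glue_loc (k : ℕ) {C N Λ : ℝ} (hC : 0 ≤ C) (hN0 : 0 ≤ N) (hΛ : 0 ≤ Λ) :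
    ∃ ε > 0, ∃ P ≥ 1, ∃ A ≥ 1, ∀ {ι : Type u} {K : ι → ι → Set ℝ} {E : ι → Type v}
      {F : ι → Type w} [∀ i, NormedAddCommGroup (E i)] [∀ i, NormedSpace ℝ (E i)]
      [∀ i, NormedAddCommGroup (F i)] [∀ i, NormedSpace ℝ (F i)] [∀ i, CompleteSpace (E i)]
      (ME : Mod K E k C) (MF : Mod K F k C) {L R T Z : ι} {p q r : ℝ}
      {S : ∀ i, E i → F i} {S' : ∀ i, E i → E i →L[ℝ] F i} {σ : E Z →L[ℝ] F Z}
      {L₀ : (E L × E R) ≃L[ℝ] (F L × F R)} {x₀ : E L × E R},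
      Neck K L R T Z p q → p + 6 + ε⁻¹ ≤ q → Loc ME MF S →
      (∀ i u, HasFDerivAt (S i) (S' i u) u) → S Z 0 = 0 → Com ME MF (S' Z 0) σ →
      Function.Injective (S' Z 0) → ‖S' Z 0‖ ≤ N → ‖σ‖ ≤ N →
      ‖(L₀.symm : F L × F R →L[ℝ] E L × E R)‖ ≤ Λ → 0 ≤ r →
      (∀ x ∈ closedBall x₀ r, ‖(S' L x.1).prodMap (S' R x.2) - L₀‖ ≤ ε) →
      (∀ w, ‖w‖ ≤ P * r → ‖S' Z w - S' Z 0‖ ≤ ε) → S L x₀.1 = 0 → S R x₀.2 = 0 →
      ‖ME.m Z L (up p 1) x₀.1‖ ≤ ε * r → ‖ME.m Z R (dn q 1) x₀.2‖ ≤ ε * r →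
      ∃ c s, RotP c s (p + 3) (q - 3) ∧ Bd k c A ∧ Bd k s A ∧
        (∃! y, (ME.m L T c y, ME.m R T s y) ∈ closedBall x₀ r ∧ S T y = 0) ∧
        ∀ y, (ME.m L T c y, ME.m R T s y) ∈ closedBall x₀ r → Function.Bijective (S' T y) := by
  obtain ⟨A, hA, hrot⟩ := exists_rot k
  have hS := one_le_cS k
  obtain ⟨B, hB⟩ : ∃ B, B = C * (3 * cS k) := ⟨_, rfl⟩
  have hB0 : 0 ≤ B := by rw [hB]; positivity
  have hCA : 0 ≤ C * A := by positivity
  -- `η = ε H₁`, value bound `ε r H₂`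
  obtain ⟨H₁, hH₁⟩ : ∃ H₁, H₁ = (B + 1) * ((2 * (C * A) + C * A * N) * B) := ⟨_, rfl⟩
  obtain ⟨H₂, hH₂⟩ : ∃ H₂, H₂ = (B + 1) * ((N + 1) * (2 * (C * A))) := ⟨_, rfl⟩
  have h10 : 0 ≤ H₁ := by rw [hH₁]; positivity
  have h20 : 0 ≤ H₂ := by rw [hH₂]; positivity
  obtain ⟨H, hH⟩ : ∃ H, H = 1 + 2 * (Λ * (1 + 2 * (C * A) * (2 * H₁))) +
    2 * Λ * (2 * (C * A) * H₂) := ⟨_, rfl⟩
  have g1 : 0 ≤ Λ * (1 + 2 * (C * A) * (2 * H₁)) := by positivity
  have g2 : 0 ≤ 2 * Λ * (2 * (C * A) * H₂) := by positivity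
  have hH1 : 1 ≤ H := by linarith
  have hε0 : 0 < H⁻¹ := by positivity
  have hε1 : H⁻¹ ≤ 1 := inv_le_one_of_one_le₀ hH1
  have hεH : H⁻¹ * H = 1 := inv_mul_cancel₀ (by positivity)
  have hP : 0 ≤ (1 + 2 * (C * A)) * (C * cS k) + 2 * (C * A) := by positivity
  refine ⟨H⁻¹, hε0, (1 + 2 * (C * A)) * (1 + C * cS k), by nlinarith, A, hA, ?_⟩
  intro ι K E F _ _ _ _ _ ME MF L R T Z p q r S S' σ L₀ x₀ hN hq hloc hd h0 hcom hinj nD nσ nL hr
    ha hω sL sR tL tR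
  rw [inv_inv] at hq
  obtain ⟨c, s, hcs, bc, bs, bc', bs'⟩ := hrot (p + 3) (q - p - 6) (by linarith)
  rw [show p + 3 + (q - p - 6) = q - 3 by ring] at hcs
  have hpq : p + 6 ≤ q := by linarith
  have hia : (q - p - 6)⁻¹ * A ≤ H⁻¹ * A :=
    mul_le_mul_of_nonneg_right (inv_anti₀ (by linarith) (by linarith)) (by linarith)
  generalize H⁻¹ = ε at *
  replace bc' := bc'.mono hia
  replace bs' := bs'.mono hia
  refine ⟨c, s, hcs, bc, bs, ?_⟩
  have hCr : 0 ≤ C * cS k * r := by positivity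
  have hεr : ε * r ≤ r := mul_le_of_le_one_left hr hε1
  have t1 : ε * r + C * cS k * r ≤ (1 + C * cS k) * r := by linarith
  have t0 : 0 ≤ (1 + C * cS k) * r := by positivity
  have t2 : (1 + C * cS k) * r ≤ (1 + 2 * (C * A)) * (1 + C * cS k) * r := by nlinarith
  have t3 : 2 * (C * A) * ((1 + C * cS k) * r) ≤ (1 + 2 * (C * A)) * (1 + C * cS k) * r := by
    nlinarith
  have t4 : 2 * (C * A) * (ε * r) ≤ (1 + 2 * (C * A)) * (1 + C * cS k) * r :=
    le_trans (mul_le_mul_of_nonneg_left (by linarith) (by positivity)) t3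
  have hσ0 := norm_nonneg σ
  refine glue_err ME MF (hN.rot hcs) (η := ε * H₁) (a₀ := ε) (ε := ε * r * H₂) bc bs hinj
    (fun x _ => hd T _) ha (fun x hx => ?_) ?_ ?_ ?_ ?_
  · rw [mem_closedBall, dist_eq_norm] at hx
    have hu := (norm_tail_le ((adm_up p le_rfl).mono hN.ZL) (bd_up k le_rfl p).of_succ tL
      ((norm_fst_le (x - x₀)).trans hx)).trans t1
    have hv := (norm_tail_le ((adm_dn q le_rfl).mono hN.ZR) (bd_dn k le_rfl q).of_succ tR
      ((norm_snd_le (x - x₀)).trans hx)).trans t1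
    obtain ⟨⟨e1, e2⟩, e3, e4⟩ := hloc.errs hN hpq hcs hd hcom bc bs bc' bs' hω t2 t3 hu hv
    rw [← hB] at e1 e2 e3 e4
    have k0 : C * (ε * A) * ‖σ‖ ≤ ε * (C * A * N) := by
      have := mul_le_mul_of_nonneg_left nσ (show 0 ≤ C * (ε * A) by positivity)
      linarith
    have k1 : (ε * (C * A) + C * (ε * A) * ‖σ‖ + C * A * ε) * B ≤
        ε * ((2 * (C * A) + C * A * N) * B) := by
      rw [← mul_assoc ε _ B]; exact mul_le_mul_of_nonneg_right (by linarith) hB0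
    have k2 : (C * (ε * A) * ‖σ‖ + C * A * ε) * B ≤ ε * ((2 * (C * A) + C * A * N) * B) := by
      rw [← mul_assoc ε _ B]
      exact mul_le_mul_of_nonneg_right (by linarith [mul_nonneg hCA hε0.le]) hB0
    have k3 : 0 ≤ ε * ((2 * (C * A) + C * A * N) * B) := by positivity
    have k4 : B * ((ε * (C * A) + C * (ε * A) * ‖σ‖ + C * A * ε) * B) ≤ ε * H₁ := by
      have := mul_le_mul_of_nonneg_left k1 hB0
      rw [hH₁]; linarith
    have k5 : (C * (ε * A) * ‖σ‖ + C * A * ε) * B ≤ ε * H₁ := by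
      have := mul_nonneg hB0 k3
      rw [hH₁]; linarith
    exact ⟨e1.trans k4, e2.trans k4, e3.trans k5, e4.trans k5⟩
  · have : Λ * (ε + 2 * (C * A) * (2 * (ε * H₁))) = ε * (Λ * (1 + 2 * (C * A) * (2 * H₁))) := by
      ring
    refine (mul_le_mul_of_nonneg_right nL (by positivity)).trans ?_
    rw [this]
    rw [hH] at hεH
    linarith [mul_nonneg hε0.le g2]
  · refine (hloc.val hN hpq hcs (hd Z) h0 bc bs hω t4 tL tR sL sR).trans ?_
    have k1 : (‖S' Z 0‖ + ε) * (2 * (C * A) * (ε * r)) ≤ (N + 1) * (2 * (C * A) * (ε * r)) :=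
      mul_le_mul_of_nonneg_right (by linarith) (by positivity)
    have k2 : 0 ≤ (N + 1) * (2 * (C * A) * (ε * r)) := by positivity
    have := mul_le_mul_of_nonneg_left k1 hB0
    rw [hH₂, ← hB]; linarith
  · refine ((S' Z 0).le_opNorm _).trans ((mul_le_mul nD (norm_anti hN hpq hcs bc bs tL tR)
      (norm_nonneg _) hN0).trans ?_)
    have k2 : 0 ≤ 2 * (C * A) * (ε * r) := by positivity
    have k3 : 0 ≤ B * ((N + 1) * (2 * (C * A) * (ε * r))) := by positivity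
    rw [hH₂]; linarith
  · have e : 2 * Λ * (2 * (C * A) * (ε * r * H₂)) = ε * (2 * Λ * (2 * (C * A) * H₂)) * r := by ring
    refine (mul_le_mul_of_nonneg_right (mul_le_mul_of_nonneg_left nL zero_le_two)
      (by positivity)).trans ?_
    rw [e]
    refine mul_le_of_le_one_left hr ?_
    rw [hH] at hεH
    linarith [mul_nonneg hε0.le g1]

end Crest.Agent.X212.Neck67
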