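import Crest.Agent.X212.Neck67.Local

/-!
# Row 212, NECKABS (helper67): operations on `Mod`

Change of constants, products, finite dimensional factors sitting at one value of `t`,
errors of compositions, `Loc` and `Com` for products.
-/

set_option autoImplicit false
set_option maxHeartbeats 400000
set_option linter.unusedSectionVars false

namespace Crest.Agent.X212.Neck67

open Set

variable {ι : Type*} {K : ι → ι → Set ℝ} {E F G H : ι → Type*} [∀ i, NormedAddCommGroup (E i)]
  [∀ i, NormedSpace ℝ (E i)] [∀ i, NormedAddCommGroup (F i)] [∀ i, NormedSpace ℝ (F i)]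
  [∀ i, NormedAddCommGroup (G i)] [∀ i, NormedSpace ℝ (G i)]
  [∀ i, NormedAddCommGroup (H i)] [∀ i, NormedSpace ℝ (H i)] {k : ℕ} {C : ℝ}

namespace Mod

/-- Weaker constants. -/
def up (M : Mod K E k C) {k' : ℕ} {C' : ℝ} (hk : k ≤ k') (hC : C ≤ C') : Mod K E k' C' where
  m := M.m
  diag := M.diag
  one := M.one
  add := M.add
  smul := M.smul
  mul := M.mul
  bd hb hM := (M.bd hb (hM.of_le hk)).trans (mul_le_mul_of_nonneg_right hC hM.nonneg)

@[simp] theorem up_m (M : Mod K E k C) {k' : ℕ} {C' : ℝ} (hk : k ≤ k') (hC : C ≤ C') :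
    (M.up hk hC).m = M.m := rfl

/-- Smaller overlaps. -/
def res (M : Mod K E k C) {K' : ι → ι → Set ℝ} (h : ∀ i j, K' i j ⊆ K i j)
    (hd : ∀ i, K' i i = univ) : Mod K' E k C where
  m := M.m
  diag := hd
  one := M.one
  add a b := M.add (a.mono (h _ _)) (b.mono (h _ _))
  smul r a := M.smul r (a.mono (h _ _))
  mul a b := M.mul (a.mono (h _ _)) (b.mono (h _ _))
  bd a := M.bd (a.mono (h _ _))

/-- Products. -/
def prod (M : Mod K E k C) (N : Mod K F k C) : Mod K (fun i => E i × F i) k C where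
  m i j b := (M.m i j b).prodMap (N.m i j b)
  diag := M.diag
  one i := by rw [M.one, N.one]; rfl
  add a b := by rw [M.add a b, N.add a b]; rfl
  smul r a := by rw [M.smul r a, N.smul r a]; rfl
  mul a b := by rw [← M.mul a b, ← N.mul a b]; rfl
  bd {i j b A} a hA := by
    have h1 := M.bd a hA
    have h0 := (norm_nonneg _).trans h1
    refine ContinuousLinearMap.opNorm_le_bound _ h0 fun x => ?_
    change ‖(M.m i j b x.1, N.m i j b x.2)‖ ≤ _
    rw [Prod.norm_def]
    exact max_le ((M.le a hA _).trans (mul_le_mul_of_nonneg_left (norm_fst_le x) h0))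
      ((N.le a hA _).trans (mul_le_mul_of_nonneg_left (norm_snd_le x) h0))

theorem prod_apply (M : Mod K E k C) (N : Mod K F k C) (i j : ι) (b : ℝ → ℝ) (x : E j × F j) :
    (M.prod N).m i j b x = (M.m i j b x.1, N.m i j b x.2) := rfl

end Mod

/-- The factor `Q` on the spaces with `S i`, zero on the others. -/
abbrev Fac (S : ι → Prop) (Q : Type*) (i : ι) : Type _ := PLift (S i) → Q

noncomputable instance (p : Prop) : Fintype (PLift p) := Fintype.ofFinite _

section Pt

variable {S : ι → Prop} {Q : Type*} [NormedAddCommGroup Q] [NormedSpace ℝ Q]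

open Classical in
/-- Transport between the factors. -/
noncomputable def facT (S : ι → Prop) (Q : Type*) [NormedAddCommGroup Q] [NormedSpace ℝ Q]
    (i j : ι) : Fac S Q j →L[ℝ] Fac S Q i :=
  if h : S j then ContinuousLinearMap.pi fun _ => ContinuousLinearMap.proj ⟨h⟩ else 0

theorem facT_pos {i j : ι} (h : S j) (f : Fac S Q j) (a : PLift (S i)) :
    facT S Q i j f a = f ⟨h⟩ := by simp [facT, h]

theorem facT_neg {i j : ι} (h : ¬ S j) : facT S Q i j = 0 := by simp [facT, h]

theorem norm_facT_le (i j : ι) : ‖facT S Q i j‖ ≤ 1 := by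
  refine ContinuousLinearMap.opNorm_le_bound _ zero_le_one fun f => ?_
  by_cases h : S j
  · rw [one_mul]
    exact (pi_norm_le_iff_of_nonneg (norm_nonneg f)).2 fun a => by
      rw [facT_pos h]; exact norm_le_pi_norm f _
  · rw [facT_neg h]; simp

/-- The identification of the factor with `Q`. -/
noncomputable def facE {i : ι} (h : S i) : Fac S Q i ≃L[ℝ] Q :=
  ContinuousLinearEquiv.equivOfInverse (ContinuousLinearMap.proj ⟨h⟩)
    (ContinuousLinearMap.pi fun _ => ContinuousLinearMap.id ℝ Q) (fun _ => rfl) fun _ => rfl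

theorem fac_sub {i : ι} (h : ¬ S i) : Subsingleton (Fac S Q i) :=
  ⟨fun _ _ => funext fun a => (h a.down).elim⟩

/-- A finite dimensional factor (parameters, scalar equations) sitting at `t = t₀` on the spaces
with `S i`. -/
noncomputable def Mod.pt (K : ι → ι → Set ℝ) (S : ι → Prop) (Q : Type*) [NormedAddCommGroup Q]
    [NormedSpace ℝ Q] (t₀ : ℝ) (hd : ∀ i, K i i = univ) (h : ∀ i j, S i → ¬ S j → t₀ ∉ K i j)
    (k : ℕ) {C : ℝ} (hC : 1 ≤ C) : Mod K (Fac S Q) k C where
  m i j b := b t₀ • facT S Q i j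
  diag := hd
  one i := by
    ext f a
    simp [facT_pos a.down]
  add _ _ := by rw [Pi.add_apply, add_smul]
  smul r _ := by rw [Pi.smul_apply, smul_eq_mul, mul_smul]
  mul {i j l b c} hb _ := by
    ext f a
    by_cases hj : S j
    · by_cases hl : S l
      · simp [facT_pos hj, facT_pos hl, smul_smul, mul_comm]
      · simp [facT_neg hl]
    · simp [hb.z t₀ (h i j a.down hj)]
  bd {i j b A} _ hA := by
    rw [norm_smul, Real.norm_eq_abs]
    calc _ ≤ A * 1 := mul_le_mul (hA.abs_le _) (norm_facT_le i j) (norm_nonneg _) hA.nonneg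
      _ ≤ _ := by rw [mul_comm]; exact mul_le_mul_of_nonneg_right hC hA.nonneg

end Pt

variable (ME : Mod K E k C) (MF : Mod K F k C) (MG : Mod K G k C) (MH : Mod K H k C) {i j : ι}

theorem err_comp (A : F i →L[ℝ] G i) (A' : F j →L[ℝ] G j) (B : E i →L[ℝ] F i)
    (B' : E j →L[ℝ] F j) (b : ℝ → ℝ) : err ME MG (A.comp B) (A'.comp B') b =
      A.comp (err ME MF B B' b) + (err MF MG A A' b).comp B' := by
  ext u; simp [err_apply]

theorem err_add (A B : E i →L[ℝ] F i) (A' B' : E j →L[ℝ] F j) (b : ℝ → ℝ) :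
    err ME MF (A + B) (A' + B') b = err ME MF A A' b + err ME MF B B' b := by
  ext u; simp [err_apply]; abel

/-- The error of inverses. -/
theorem err_inv (A : E i ≃L[ℝ] F i) (A' : E j ≃L[ℝ] F j) (b : ℝ → ℝ) :
    err MF ME (A.symm : F i →L[ℝ] E i) (A'.symm : F j →L[ℝ] E j) b =
      -(A.symm : F i →L[ℝ] E i).comp ((err ME MF (A : E i →L[ℝ] F i) (A' : E j →L[ℝ] F j) b).comp
        (A'.symm : F j →L[ℝ] E j)) := by
  ext u; simp [err_apply]

variable {ME MF MG MH}

theorem Loc.prod {S : ∀ i, E i → F i} {S' : ∀ i, E i → G i} (h : Loc ME MF S) (h' : Loc ME MG S') :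
    Loc ME (MF.prod MG) fun i u => (S i u, S' i u) := fun _ _ _ _ hb hc e u =>
  Prod.ext (h hb hc e u) (h' hb hc e u)

theorem Loc.add {S S' : ∀ i, E i → F i} (h : Loc ME MF S) (h' : Loc ME MF S') :
    Loc ME MF fun i u => S i u + S' i u := fun _ _ _ _ hb hc e u => by
  simp only [map_add, h hb hc e u, h' hb hc e u]

theorem Loc.fst {S : ∀ i, E i → G i} (h : Loc ME MG S) :
    Loc (ME.prod MF) MG fun i u => S i u.1 := fun _ _ _ _ hb hc e u => h hb hc e u.1

theorem Loc.snd {S : ∀ i, F i → G i} (h : Loc MF MG S) :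
    Loc (ME.prod MF) MG fun i u => S i u.2 := fun _ _ _ _ hb hc e u => h hb hc e u.2

/-- Linear maps that commute with the transports are local. -/
theorem Loc.of_comm {A : ∀ i, E i →L[ℝ] F i}
    (h : ∀ i j b, Adm (K i j) b → ∀ u, A i (ME.m i j b u) = MF.m i j b (A j u)) :
    Loc ME MF fun i => A i := fun i j b c hb hc e u => by
  rw [← h i j b hb, ME.mm hb hc, e, h i i b (ME.adm hb.sm i)]

end Crest.Agent.X212.Neck67
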